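import Vale.Agent.P365.T2.H79.OneSite
import Vale.Agent.P365.T2.H963.ContUps
import Vale.Agent.P365.T2.DerivS755
import Vale.Agent.P365.V4.FlowLoss548b

/-!
# P365-T2, X-CNT: the flow of `Av Th (PhB)` in logarithmic time, loss kept, linear law error.
-/

set_option linter.all false

open MeasureTheory Set Complex Filter Topology
open scoped ComplexConjugate

namespace P365T2.H79

open P365L P365O P365T1 Vale.Agent.P365.J376 P365T2.H784 P365T2.H211 P365L.T2.Path

/-! ### one variable -/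

/-- bound on the second Cauchy transform -/
def C2 (ν : Measure ℝ) (c2 : ℝ) : Prop :=
  ∀ s : ℂ, 0 < s.im → ‖∫ v, tt s v ^ 2 ∂ν‖ ≤ c2 / (1 + ‖s‖ ^ 2)

theorem C2.nonneg {ν : Measure ℝ} {c2 : ℝ} (h : C2 ν c2) : 0 ≤ c2 := by
  have h1 := (norm_nonneg _).trans (h I (by simp))
  rw [Complex.norm_I] at h1
  norm_num at h1
  linarith

theorem SmL.supp {ν : Measure ℝ} {L R : ℝ} (h : SmL ν L R) : ν (Icc (-L) L)ᶜ = 0 := by
  obtain ⟨ρ, ρ', hd, hc, hρ0, hρR, hsupp, hνd⟩ := h
  rw [hνd, withDensity_apply _ measurableSet_Icc.compl,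
    setLIntegral_eq_zero_iff measurableSet_Icc.compl]
  · refine Filter.Eventually.of_forall fun v hv => ?_
    have h2 : L ≤ |v| := by
      by_contra hlt
      push Not at hlt
      rw [abs_lt] at hlt
      exact hv ⟨hlt.1.le, hlt.2.le⟩
    rw [hsupp v h2, ENNReal.ofReal_zero]
  · have hρc : Continuous ρ := continuous_iff_continuousAt.2 fun v => (hd v).continuousAt
    exact hρc.measurable.ennreal_ofReal

theorem integrable_of_supp {ν : Measure ℝ} [IsFiniteMeasure ν] {L : ℝ}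
    (h : ν (Icc (-L) L)ᶜ = 0) {g : ℝ → ℝ} (hg : Continuous g) : Integrable g ν := by
  obtain ⟨C, hC⟩ := (isCompact_Icc (a := -L) (b := L)).exists_bound_of_continuousOn
    hg.continuousOn
  refine Integrable.mono' (integrable_const C) hg.aestronglyMeasurable ?_
  have : ∀ᵐ v ∂ν, v ∈ Icc (-L) L := by
    rw [ae_iff]
    exact h
  filter_upwards [this] with v hv
  exact hC v hv

theorem tt_shift (s : ℂ) (E v : ℝ) : tt s (v - E) = tt (s + E) v := by
  unfold tt
  congr 1
  push_cast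
  ring

theorem del_shift (b s : ℂ) (E v : ℝ) : del b s (v - E) = del b (s + E) v := by
  unfold del
  rw [tt_shift]
  simp

theorem FF_shift (F0 : ℝ) (b s : ℂ) (E v : ℝ) : FF F0 b s (v - E) = FF F0 b (s + E) v := by
  unfold FF
  rw [tt_shift]

theorem ddTh_taylor {T C : ℝ} (hT : 0 < T) {F F' : ℝ} (hF : 0 ≤ F) (hF' : 0 ≤ F') :
    |dTh T C F' - dTh T C F - T * ddpsi T F * (F' - F)| ≤ 3 / T * (F' - F) ^ 2 := by
  have h1 : T + F ≠ 0 := by positivity
  have h2 : T + F' ≠ 0 := by positivity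
  have e : dTh T C F' - dTh T C F - T * ddpsi T F * (F' - F) =
      -(T ^ 3 * ((T + F) + 2 * (T + F')) / ((T + F) ^ 3 * (T + F') ^ 2)) * (F' - F) ^ 2 := by
    unfold dTh dpsi ddpsi
    field_simp
    ring
  rw [e, abs_mul, abs_neg, abs_of_nonneg (by positivity), abs_of_nonneg (sq_nonneg (F' - F))]
  refine mul_le_mul_of_nonneg_right ?_ (sq_nonneg _)
  rw [div_le_div_iff₀ (by positivity) hT]
  obtain ⟨a, ha⟩ : ∃ a, T + F = a := ⟨_, rfl⟩
  obtain ⟨b, hb⟩ : ∃ b, T + F' = b := ⟨_, rfl⟩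
  rw [ha, hb]
  have ha1 : T ≤ a := by linarith
  have hb1 : T ≤ b := by linarith
  have ha0 : 0 < a := by linarith
  have hb0 : 0 < b := by linarith
  have h3 : T ^ 4 ≤ a ^ 2 * b ^ 2 := by
    have h4 : T ^ 2 ≤ a ^ 2 := pow_le_pow_left₀ hT.le ha1 2
    have h5 : T ^ 2 ≤ b ^ 2 := pow_le_pow_left₀ hT.le hb1 2
    calc T ^ 4 = T ^ 2 * T ^ 2 := by ring
      _ ≤ a ^ 2 * b ^ 2 := mul_le_mul h4 h5 (by positivity) (by positivity)
  have h4 : T ^ 4 ≤ a ^ 3 * b := by
    have h4 : T ^ 3 ≤ a ^ 3 := pow_le_pow_left₀ hT.le ha1 3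
    calc T ^ 4 = T ^ 3 * T := by ring
      _ ≤ a ^ 3 * b := mul_le_mul h4 hb1 hT.le (by positivity)
  calc T ^ 3 * (a + 2 * b) * T = T ^ 4 * a + 2 * (T ^ 4 * b) := by ring
    _ ≤ (a ^ 2 * b ^ 2) * a + 2 * ((a ^ 3 * b) * b) := by gcongr
    _ = 3 * (a ^ 3 * b ^ 2) := by ring

theorem sm_dTh {T C : ℝ} (hT : 0 < T) (hC : 0 ≤ C) :
    Sm (dTh T C) (fun F => T * ddpsi T F) (T + C) 2 (3 / T) where
  d F hF := hasDerivAt_dTh hT hF
  c := by
    have : ContinuousOn (fun F : ℝ => T * (2 * T ^ 2 / (T + F) ^ 3)) (Ici 0) := by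
      refine continuousOn_const.mul (continuousOn_const.div (by fun_prop) fun F hF => ?_)
      have : 0 ≤ F := hF
      positivity
    exact this
  b1 F hF := by
    rw [abs_of_nonneg (dTh_nonneg hT hC hF)]
    exact dTh_le hT hF
  b2 F hF := by
    rw [abs_of_nonneg (ddTh_nonneg hT hF)]
    exact ddTh_le hT hF
  b3 F F' hF hF' := ddTh_taylor hT hF hF'

/-- the linear coefficient in `Th`, twice the constant of the kick -/
noncomputable def CT (κ : Type*) [Fintype κ] : ℝ := 2 * C0k κ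

theorem C0k_nonneg (κ : Type*) [Fintype κ] : 0 ≤ C0k κ := by
  unfold C0k
  positivity

theorem CT_nonneg (κ : Type*) [Fintype κ] : 0 ≤ CT κ := by
  have := C0k_nonneg κ
  unfold CT
  linarith

/-- constant of the law error of `Th` -/
noncomputable def CN (κ : Type*) [Fintype κ] (E L R c2 T : ℝ) : ℝ :=
  CL L R c2 (T + CT κ) 2 (3 / T) (320 * (Fintype.card κ : ℝ)) * (20 * (1 + E ^ 2))

section one

variable {ι : Type*} [Fintype ι] [DecidableEq ι] {A : Matrix ι ι ℝ} {W : ι → ℂ}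
  {κ : Type*} [Fintype κ]

/-- the integrand: generator of `Th (PhB)` minus the loss -/
noncomputable def HH (A : Matrix ι ι ℝ) (f : κ → ι → ℝ) (T : ℝ) (z : ι) (W : ι → ℂ) : ℝ :=
  dTh T (CT κ) (PhB A W f) * dB A W f z - 3 / 4 * (min (PhB A W f) T * lsB A W f z)

theorem CL_nonneg {L R c2 M1 M2 M3 K : ℝ} (hR : 0 ≤ R) (hc2 : 0 ≤ c2)
    (h1 : 0 ≤ M1) (h2 : 0 ≤ M2) (h3 : 0 ≤ M3) (hK : 0 ≤ K) : 0 ≤ CL L R c2 M1 M2 M3 K := by
  unfold CL
  have := Real.pi_pos
  positivity

theorem one_site_pt (hA : A.IsSymm) (hW : ∀ x, (W x).im < 0) {f : κ → ι → ℝ}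
    (hf : ∀ k x, |f k x| ≤ 1) {T : ℝ} (hT : 0 < T) (z : ι) (u : ℝ) :
    HD (dTh T (CT κ)) (fun F => T * ddpsi T F) (E0B A W f z) (bB A W f z) (sz A W z) u ≤
      HH A f T z (rez W z u) := by
  have hW' := rez_neg hW z u
  have hF : 0 ≤ PhB A (rez W z u) f := PhB_nonneg hW' f
  have h1 := kick_le hA hW hf z u
  have h2 := lsB_nonneg hA hW' f z
  have h3 := min_le_dTh_sub (C := CT κ) hT hF
  have h4 := ddTh_nonneg hT hF
  have h5 := ddTh_le hT hF
  have h6 := C0k_nonneg κ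
  unfold HH HD
  rw [dB_rez hA hW, ← PhB_rez hA hW]
  obtain ⟨q, hq⟩ : ∃ q, q = 2 * (tt (sz A W z) u).im * del (bB A W f z) (sz A W z) u ^ 2 :=
    ⟨_, rfl⟩
  have hq0 : 0 ≤ q := by
    rw [hq]
    have := tt_im_nonneg (sz_im_pos hA hW z) u
    positivity
  rw [← hq] at h1
  have e : T * ddpsi T (PhB A (rez W z u) f) *
      (2 * (tt (sz A W z) u).im * del (bB A W f z) (sz A W z) u) *
      del (bB A W f z) (sz A W z) u = T * ddpsi T (PhB A (rez W z u) f) * q := by
    rw [hq]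
    ring
  rw [e]
  have h7 : T * ddpsi T (PhB A (rez W z u) f) * q ≤ 2 * (C0k κ * lsB A (rez W z u) f z) :=
    mul_le_mul h5 h1 hq0 (by norm_num)
  have h8 : (3 / 4 * min (PhB A (rez W z u) f) T + CT κ) * lsB A (rez W z u) f z ≤
      dTh T (CT κ) (PhB A (rez W z u) f) * lsB A (rez W z u) f z :=
    mul_le_mul_of_nonneg_right (by linarith) h2
  have h9 : CT κ = 2 * C0k κ := rfl
  rw [mul_add]
  rw [h9] at h8 ⊢
  nlinarith

theorem continuous_rez (W : ι → ℂ) (z : ι) (E : ℝ) : Continuous fun v : ℝ => rez W z (v - E) := by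
  unfold rez
  refine Continuous.update continuous_const z ?_
  exact (Complex.continuous_ofReal.comp (continuous_id.sub continuous_const)).add continuous_const

theorem integral_HH_ge {ν : Measure ℝ} [IsProbabilityMeasure ν] {L R c2 E : ℝ} (hL : 0 ≤ L)
    (hR : 0 ≤ R) (hν : SmL ν L R) (hc : C2 ν c2) (hA : A.IsSymm) (hW : ∀ x, (W x).im < 0)
    {f : κ → ι → ℝ} (hf : ∀ k x, |f k x| ≤ 1) {T : ℝ} (hT : 0 < T) (z : ι)
    (hHH : ContinuousOn (HH A f T z) (LH ι)) :
    -(CN κ E L R c2 T * YB A W f z) ≤ ∫ v, HH A f T z (rez W z (v - E)) ∂ν := by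
  have hsm := sm_dTh (T := T) (C := CT κ) hT (CT_nonneg κ)
  have hs := sz_im_pos hA hW z
  have hs' : 0 < (sz A W z + (E : ℂ)).im := by
    rw [Complex.add_im, Complex.ofReal_im, add_zero]
    exact hs
  have hF : ∀ v, 0 ≤ FF (E0B A W f z) (bB A W f z) (sz A W z + (E : ℂ)) v := by
    intro v
    rw [← FF_shift, ← PhB_rez hA hW]
    exact PhB_nonneg (rez_neg hW z _) f
  have hc2 := hc.nonneg
  have hb : ‖bB A W f z‖ ≤ 320 * (Fintype.card κ : ℝ) * (sz A W z + (E : ℂ)).im := by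
    rw [Complex.add_im, Complex.ofReal_im, add_zero]
    exact norm_bB_le_sz hA hW hf z
  have h1 := law_err hL hν hsm hs' hR (hc _ hs') (by positivity) hb hF
  have hi1 : Integrable (fun v => HD (dTh T (CT κ)) (fun F => T * ddpsi T F) (E0B A W f z)
      (bB A W f z) (sz A W z + (E : ℂ)) v) ν :=
    integrable_of_supp hν.supp (continuous_HD hsm hs' hF)
  have hi2 : Integrable (fun v => HH A f T z (rez W z (v - E))) ν :=
    integrable_of_supp hν.supp (hHH.comp_continuous (continuous_rez W z E) fun v =>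
      rez_neg hW z _)
  have h2 : ∫ v, HD (dTh T (CT κ)) (fun F => T * ddpsi T F) (E0B A W f z)
      (bB A W f z) (sz A W z + (E : ℂ)) v ∂ν ≤ ∫ v, HH A f T z (rez W z (v - E)) ∂ν := by
    refine integral_mono hi1 hi2 fun v => ?_
    have h3 := one_site_pt hA hW hf hT z (v - E)
    have h4 : HD (dTh T (CT κ)) (fun F => T * ddpsi T F) (E0B A W f z)
        (bB A W f z) (sz A W z) (v - E) = HD (dTh T (CT κ)) (fun F => T * ddpsi T F)
        (E0B A W f z) (bB A W f z) (sz A W z + (E : ℂ)) v := by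
      unfold HD
      rw [FF_shift, tt_shift, del_shift]
    rw [h4] at h3
    exact h3
  have h3 := neg_abs_le (∫ v, HD (dTh T (CT κ)) (fun F => T * ddpsi T F) (E0B A W f z)
      (bB A W f z) (sz A W z + (E : ℂ)) v ∂ν)
  have hCL : 0 ≤ CL L R c2 (T + CT κ) 2 (3 / T) (320 * (Fintype.card κ : ℝ)) :=
    CL_nonneg hR hc2 (by have := CT_nonneg κ; linarith) (by norm_num) (by positivity)
      (by positivity)
  have h4 : ‖bB A W f z‖ / (1 + ‖sz A W z + (E : ℂ)‖ ^ 2) ≤ 20 * (1 + E ^ 2) * YB A W f z := by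
    rw [YB_eq]
    have hb2 := norm_bB_le hA hW f z
    have hN := NB_nonneg (A := A) hW f z
    have h4 := norm_sg_le_norm_sz hA hW z
    have h5 : ‖sz A W z‖ ^ 2 ≤ 2 * ‖sz A W z + E‖ ^ 2 + 2 * E ^ 2 := by
      have h6 : ‖sz A W z‖ ≤ ‖sz A W z + E‖ + |E| := by
        calc ‖sz A W z‖ = ‖(sz A W z + E) - E‖ := by rw [add_sub_cancel_right]
          _ ≤ ‖sz A W z + E‖ + ‖(E : ℂ)‖ := norm_sub_le _ _
          _ = _ := by rw [Complex.norm_real, Real.norm_eq_abs]
      have h7 := norm_nonneg (sz A W z)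
      have h8 := norm_nonneg (sz A W z + E)
      have h9 := sq_abs E
      nlinarith [sq_nonneg (‖sz A W z + E‖ - |E|), abs_nonneg E]
    have h6 : 1 + ‖sg A W z‖ ^ 2 ≤ 2 * (1 + E ^ 2) * (1 + ‖sz A W z + E‖ ^ 2) := by
      nlinarith [sq_nonneg E, sq_nonneg ‖sz A W z + E‖,
        mul_nonneg (sq_nonneg E) (sq_nonneg ‖sz A W z + E‖)]
    rw [mul_div_assoc', div_le_div_iff₀ (by positivity) (by positivity)]
    calc ‖bB A W f z‖ * (1 + ‖sg A W z‖ ^ 2)
        ≤ (10 * NB A W f z) * (2 * (1 + E ^ 2) * (1 + ‖sz A W z + E‖ ^ 2)) :=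
          mul_le_mul hb2 h6 (by positivity) (by positivity)
      _ = _ := by ring
  have h5 := mul_le_mul_of_nonneg_left h4 hCL
  have h6 : CN κ E L R c2 T * YB A W f z =
      CL L R c2 (T + CT κ) 2 (3 / T) (320 * (Fintype.card κ : ℝ)) *
        (20 * (1 + E ^ 2) * YB A W f z) := by
    rw [CN]
    ring
  rw [h6]
  linarith

end one

/-! ### smoothness and derivatives -/

section smooth

variable {ι : Type*} [Fintype ι] [DecidableEq ι] {A : Matrix ι ι ℝ}
  {κ : Type*} [Fintype κ] {n : WithTop ℕ∞}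

theorem contDiffOn_PhB (hA : A.IsSymm) (f : κ → ι → ℝ) :
    ContDiffOn ℝ n (fun W : ι → ℂ => PhB A W f) (LH ι) := by
  unfold PhB PhE
  exact ContDiffOn.sum fun k _ => (contDiffOn_const.mul (contDiffOn_En hA (f k))).add
    (contDiffOn_En hA fun y => f k y ^ 2)

theorem contDiffOn_Th_PhB (hA : A.IsSymm) (f : κ → ι → ℝ) {T : ℝ} (hT : 0 < T) (C : ℝ) :
    ContDiffOn ℝ n (fun W : ι → ℂ => Th T C (PhB A W f)) (LH ι) := by
  unfold Th psi
  refine (contDiffOn_const.mul (((contDiffOn_PhB hA f).pow 2).div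
    (contDiffOn_const.add (contDiffOn_PhB hA f)) fun W hW => ?_)).add
    (contDiffOn_const.mul (contDiffOn_PhB hA f))
  have := PhB_nonneg (A := A) hW f
  positivity

theorem contDiffOn_lsB (hA : A.IsSymm) (f : κ → ι → ℝ) (x : ι) :
    ContDiffOn ℝ n (fun W : ι → ℂ => lsB A W f x) (LH ι) := by
  unfold lsB lossS
  exact ContDiffOn.sum fun k _ => (contDiffOn_const.mul (contDiffOn_const.mul
    ((contDiffOn_mm hA x).mul ((contDiffOn_muf hA (f k) x).pow 2)))).add
    (contDiffOn_const.mul ((contDiffOn_mm hA x).mul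
      ((contDiffOn_muf hA (fun y => f k y ^ 2) x).pow 2)))

theorem contDiffOn_YB (hA : A.IsSymm) (f : κ → ι → ℝ) (x : ι) :
    ContDiffOn ℝ n (fun W : ι → ℂ => YB A W f x) (LH ι) := by
  unfold YB
  exact ContDiffOn.sum fun k _ => (contDiffOn_const.mul (contDiffOn_Yf hA (f k) x)).add
    (contDiffOn_Yf hA (fun y => f k y ^ 2) x)

theorem contDiffOn_bz (hA : A.IsSymm) (f : ι → ℝ) (z : ι) :
    ContDiffOn ℝ n (fun W : ι → ℂ => bz A W f z) (LH ι) := by
  have hGi : ∀ a b, ContDiffOn ℝ n (fun W : ι → ℂ => Gi A W z a b) (LH ι) := fun a b => by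
    unfold Gi
    exact (contDiffOn_Gr hA a b).sub ((contDiffOn_gw hA z a).mul (contDiffOn_Gr hA z b))
  have hB : ContDiffOn ℝ n (fun W : ι → ℂ => Bf A W f z) (LH ι) :=
    ContDiffOn.sum fun a _ => ((contDiff_e a).contDiffOn.mul
      ((contDiffOn_gw hA z a).norm_sq ℝ)).mul contDiffOn_const
  have hS : ContDiffOn ℝ n (fun W : ι → ℂ => Sf A W z) (LH ι) :=
    ContDiffOn.sum fun a _ => (contDiff_e a).contDiffOn.mul
      ((contDiffOn_gw hA z a).norm_sq ℝ)
  have hconj : ∀ {g : (ι → ℂ) → ℂ}, ContDiffOn ℝ n g (LH ι) →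
      ContDiffOn ℝ n (fun W => conj (g W)) (LH ι) := fun hg =>
    Complex.conjCLE.contDiff.comp_contDiffOn hg
  have hc0 : ContDiffOn ℝ n (fun W : ι → ℂ => c0 A W f z) (LH ι) := by
    unfold c0
    refine ContDiffOn.sum fun a _ => ContDiffOn.sum fun b _ => ?_
    refine ContDiffOn.mul (contDiffOn_ofReal ?_) ?_
    · exact ((contDiff_e a).contDiffOn.mul (contDiff_e b).contDiffOn).mul contDiffOn_const
    · exact ((hconj (hGi a b)).mul (contDiffOn_gw hA z a)).mul (contDiffOn_gw hA z b)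
  unfold bz
  refine (contDiffOn_const.mul hc0).sub (contDiffOn_const.mul (contDiffOn_ofReal ?_))
  exact (contDiffOn_Nf hA f z).sub ((hB.pow 2).div hS fun W hW => (Sf_pos hA hW z).ne')

theorem contDiffOn_dEn (hA : A.IsSymm) (f : ι → ℝ) (z : ι) :
    ContDiffOn ℝ n (fun W : ι → ℂ => dEn A W f z) (LH ι) := by
  have h1 : ContDiffOn ℝ n (fun W : ι → ℂ => lossS A W f z + lawErr A W f z) (LH ι) := by
    unfold lossS lawErr
    refine (contDiffOn_const.mul ((contDiffOn_mm hA z).mul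
      ((contDiffOn_muf hA f z).pow 2))).add (contDiffOn_re ?_)
    exact (contDiffOn_const.mul (contDiffOn_bz hA f z)).mul ((contDiffOn_Gr hA z z).pow 2)
  exact h1.congr fun W hW => dEn_split hA hW f z

theorem contDiffOn_dB (hA : A.IsSymm) (f : κ → ι → ℝ) (x : ι) :
    ContDiffOn ℝ n (fun W : ι → ℂ => dB A W f x) (LH ι) := by
  unfold dB
  exact ContDiffOn.sum fun k _ => (contDiffOn_const.mul (contDiffOn_dEn hA (f k) x)).add
    (contDiffOn_dEn hA (fun y => f k y ^ 2) x)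

theorem continuousOn_dTh_PhB (hA : A.IsSymm) (f : κ → ι → ℝ) {T : ℝ} (hT : 0 < T) (C : ℝ) :
    ContinuousOn (fun W : ι → ℂ => dTh T C (PhB A W f)) (LH ι) := by
  have h0 := (contDiffOn_PhB (n := 0) hA f).continuousOn
  unfold dTh dpsi
  refine (continuousOn_const.mul ((h0.mul (h0.add continuousOn_const)).div
    ((continuousOn_const.add h0).pow 2) fun W hW => ?_)).add continuousOn_const
  have h1 := PhB_nonneg (A := A) hW f
  have h2 : 0 < T + PhB A W f := by linarith
  exact pow_ne_zero 2 h2.ne'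

theorem continuousOn_min (hA : A.IsSymm) (f : κ → ι → ℝ) (T : ℝ) (x : ι) :
    ContinuousOn (fun W : ι → ℂ => min (PhB A W f) T * lsB A W f x) (LH ι) :=
  ((contDiffOn_PhB (n := 0) hA f).continuousOn.inf continuousOn_const).mul
    (contDiffOn_lsB (n := 0) hA f x).continuousOn

theorem continuousOn_HH (hA : A.IsSymm) (f : κ → ι → ℝ) {T : ℝ} (hT : 0 < T) (z : ι) :
    ContinuousOn (HH A f T z) (LH ι) :=
  ((continuousOn_dTh_PhB hA f hT _).mul (contDiffOn_dB (n := 0) hA f z).continuousOn).sub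
    (continuousOn_const.mul (continuousOn_min hA f T z))

/-- derivative of the block functional in one absorption -/
theorem dI_Th (hA : A.IsSymm) (f : κ → ι → ℝ) {T : ℝ} (hT : 0 < T) (C : ℝ) {W : ι → ℂ}
    (hW : W ∈ LH ι) (x : ι) :
    dI (fun W => Th T C (PhB A W f)) x W = dTh T C (PhB A W f) * dB A W f x := by
  set a : ι → ℝ := fun y => (W y).re with ha
  set e : ℝ → ι → ℝ := fun s y => -(W y).im + s * (Pi.single x (1 : ℝ) : ι → ℝ) y with he
  have hW0 : WV 0 (e 0) a = W := by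
    funext y
    simp only [WV, ha, he, sub_zero, zero_mul, add_zero]
    rw [Complex.ofReal_neg, neg_mul, sub_neg_eq_add]
    exact Complex.re_add_im (W y)
  have hd : ∀ y, HasDerivAt (fun s => e s y) ((Pi.single x (1 : ℝ) : ι → ℝ) y) 0 := fun y => by
    have h := ((hasDerivAt_id (0 : ℝ)).mul_const ((Pi.single x (1 : ℝ) : ι → ℝ) y)).const_add
      (-(W y).im)
    rw [one_mul] at h
    exact h
  have hpos : ∀ y, 0 < e 0 y := fun y => by
    simp only [he, zero_mul, add_zero]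
    linarith [hW y]
  have h1 := hasDerivAt_path (contDiffOn_Th_PhB (n := 1) hA f hT C) (E := 0) (v := a) hd hpos
  rw [hW0] at h1
  have hs : ∀ g : ι → ℝ, ∑ y, (Pi.single x (1 : ℝ) : ι → ℝ) y * g y = g x := fun g => by
    rw [Finset.sum_eq_single x]
    · simp
    · intro y _ hy
      simp [Pi.single_apply, hy]
    · intro h
      exact absurd (Finset.mem_univ x) h
  rw [hs] at h1
  have hE : ∀ g : ι → ℝ, HasDerivAt (fun s => En A (WV 0 (e s) a) g) (dEn A W g x) 0 := by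
    intro g
    have h2 := hasDerivAt_En (A := A) hA (a := fun y => a y - 0) (h := e) hd hpos g
    have h3 : ∀ s, Wp (fun y => a y - 0) (e s) = WV 0 (e s) a := fun s => by
      rw [WV_eq_Wp]
    simp only [h3, hW0] at h2
    rw [hs (fun z => dEn A W g z)] at h2
    exact h2
  have hP : HasDerivAt (fun s => PhB A (WV 0 (e s) a) f) (dB A W f x) 0 := by
    unfold PhB PhE dB
    exact HasDerivAt.fun_sum fun k _ => ((hE (f k)).const_mul 4).add (hE fun y => f k y ^ 2)
  have hPos : 0 ≤ PhB A (WV 0 (e 0) a) f := by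
    rw [hW0]
    exact PhB_nonneg hW f
  have h4 := (hasDerivAt_Th (C := C) hT hPos).comp (0 : ℝ) hP
  rw [hW0] at h4
  exact h1.unique h4

end smooth

/-! ### the product law -/

section prod

variable {ι : Type*} [Fintype ι] [DecidableEq ι] {A : Matrix ι ι ℝ} {κ : Type*} [Fintype κ]

theorem Ex_HH_ge (hA : A.IsSymm) (m : ι → Measure ℝ) [∀ x, IsProbabilityMeasure (m x)] {R₀ : ℝ}
    (hR₀ : ∀ x, m x (Icc (-R₀) R₀)ᶜ = 0) {E : ℝ} {e : ι → ℝ} (he : ∀ x, 0 < e x)
    {f : κ → ι → ℝ} (hf : ∀ k x, |f k x| ≤ 1) {T : ℝ} (hT : 0 < T) (x : ι) {L R c2 : ℝ}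
    (hL : 0 ≤ L) (hR : 0 ≤ R) (hν : SmL (m x) L R) (hc : C2 (m x) c2) :
    -(CN κ E L R c2 T * Ex m E e (fun W => YB A W f x)) ≤ Ex m E e (HH A f T x) := by
  have hH := continuousOn_HH (A := A) hA f hT x
  have hY : ContinuousOn (fun W : ι → ℂ => YB A W f x) (LH ι) :=
    (contDiffOn_YB (n := 0) hA f x).continuousOn
  have hint := integrable_of_continuousOn hH hR₀ (E := E) he
  have hmp := MAff.measurePreserving_resample m x
  have hf' : Integrable (fun q : (ι → ℝ) × ℝ => HH A f T x (WV E e (Function.update q.1 x q.2)))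
      ((Measure.pi m).prod (m x)) := hmp.integrable_comp_of_integrable hint
  rw [Ex_resample hH hR₀ he x]
  unfold Ex
  rw [← integral_const_mul, ← integral_neg]
  refine integral_mono (((integrable_of_continuousOn hY hR₀ he).const_mul _).neg)
    hf'.integral_prod_left fun v => ?_
  have h2 := integral_HH_ge (E := E) hL hR hν hc hA (WV_neg (E := E) he v) hf hT x hH
  simp only [WV_update]
  exact h2

end prod

/-! ### labels, logarithmic time -/

section labels

variable {ι : Type*} [Fintype ι] [DecidableEq ι] {A : Matrix ι ι ℝ}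
  {Λ : Type*} [Fintype Λ] {p : Λ → ℝ} {ν : Λ → Measure ℝ} {E : ℝ} {κ : Type*} [Fintype κ]

/-- the functional -/
noncomputable def QT (A : Matrix ι ι ℝ) (p : Λ → ℝ) (ν : Λ → Measure ℝ) (E : ℝ)
    (f : κ → ι → ℝ) (T : ℝ) (e : (ι → Λ) → ι → ℝ) : ℝ :=
  AvG p ν E e fun _ W => Th T (CT κ) (PhB A W f)

/-- its dissipation in direction `w` -/
noncomputable def DT (A : Matrix ι ι ℝ) (p : Λ → ℝ) (ν : Λ → Measure ℝ) (E : ℝ)
    (f : κ → ι → ℝ) (T : ℝ) (e w : (ι → Λ) → ι → ℝ) : ℝ :=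
  AvG p ν E e fun l W => ∑ x, w l x * (min (PhB A W f) T * lsB A W f x)

/-- the weighted off-resonant energy of the block functional -/
noncomputable def YT (A : Matrix ι ι ℝ) (p : Λ → ℝ) (ν : Λ → Measure ℝ) (E : ℝ)
    (f : κ → ι → ℝ) (e w : (ι → Λ) → ι → ℝ) : ℝ :=
  AvG p ν E e fun l W => ∑ x, w l x * YB A W f x

theorem DT_nonneg (hA : A.IsSymm) (hp : ∀ k, 0 ≤ p k) {f : κ → ι → ℝ} {T : ℝ} (hT : 0 < T)
    {e w : (ι → Λ) → ι → ℝ} (he : ∀ l x, 0 < e l x) (hw : ∀ l x, 0 ≤ w l x) :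
    0 ≤ DT A p ν E f T e w := by
  refine Finset.sum_nonneg fun l _ => mul_nonneg (Finset.prod_nonneg fun x _ => hp _) ?_
  refine Ex_nonneg _ _ _ fun v => Finset.sum_nonneg fun x _ => mul_nonneg (hw l x)
    (mul_nonneg (le_min (PhB_nonneg (WV_neg (he l) v) f) hT.le)
      (lsB_nonneg hA (WV_neg (he l) v) f x))

theorem QT_nonneg (hp : ∀ k, 0 ≤ p k) {f : κ → ι → ℝ} {T : ℝ} (hT : 0 < T)
    {e : (ι → Λ) → ι → ℝ} (he : ∀ l x, 0 < e l x) : 0 ≤ QT A p ν E f T e := by
  refine Finset.sum_nonneg fun l _ => mul_nonneg (Finset.prod_nonneg fun x _ => hp _) ?_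
  exact Ex_nonneg _ _ _ fun v => Th_nonneg hT (CT_nonneg κ) (PhB_nonneg (WV_neg (he l) v) f)

/-- **the flow of one block functional**: in logarithmic time the derivative is at most minus
`(3/4)` the loss weighted with `min (PhB) T`, plus the off-resonant energy -/
theorem flow_Th (hA : A.IsSymm) [∀ k, IsProbabilityMeasure (ν k)] (hp : ∀ k, 0 ≤ p k) {R₀ : ℝ}
    (hR₀ : ∀ k, ν k (Icc (-R₀) R₀)ᶜ = 0) {u w : (ι → Λ) → ι → ℝ} (hu : ∀ l x, 0 < u l x)
    (hw : ∀ l x, 0 ≤ w l x) {L R c2 : ℝ} (hL : 0 ≤ L) (hR : 0 ≤ R)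
    (hmov : ∀ l x, w l x ≠ 0 → SmL (ν (l x)) L R ∧ C2 (ν (l x)) c2)
    {f : κ → ι → ℝ} (hf : ∀ k x, |f k x| ≤ 1) {T : ℝ} (hT : 0 < T) (τ : ℝ) :
    ∃ d, HasDerivAt (fun τ => QT A p ν E f T (eT u w τ)) d τ ∧
      d ≤ -(3 / 4 * DT A p ν E f T (eT u w τ) (wT w τ)) +
        CN κ E L R c2 T * YT A p ν E f (eT u w τ) (wT w τ) := by
  have hΨ : ∀ _ : ι → Λ, ContDiffOn ℝ 1 (fun W : ι → ℂ => Th T (CT κ) (PhB A W f)) (LH ι) :=
    fun _ => contDiffOn_Th_PhB hA f hT _
  have h1 := hasDerivAt_AvG_stage (p := p) (ν := ν) (E := E)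
    (Ψ := fun _ W => Th T (CT κ) (PhB A W f)) hΨ hR₀ hu hw τ
  refine ⟨_, h1, ?_⟩
  have he : ∀ l x, 0 < eT u w τ l x := fun l x => by
    have := mul_nonneg (Real.exp_pos (-τ)).le (hw l x)
    have := hu l x
    unfold eT
    linarith
  unfold DT YT AvG
  rw [Finset.mul_sum, Finset.mul_sum, ← Finset.sum_neg_distrib, ← Finset.sum_neg_distrib,
    ← Finset.sum_add_distrib]
  refine Finset.sum_le_sum fun l _ => ?_
  have hpr : 0 ≤ ∏ x, p (l x) := Finset.prod_nonneg fun x _ => hp _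
  have key : 3 / 4 * Ex (fun x => ν (l x)) E (eT u w τ l)
      (fun W => ∑ x, wT w τ l x * (min (PhB A W f) T * lsB A W f x)) -
      CN κ E L R c2 T * Ex (fun x => ν (l x)) E (eT u w τ l)
        (fun W => ∑ x, wT w τ l x * YB A W f x) ≤
      Ex (fun x => ν (l x)) E (eT u w τ l) (fun W => ∑ x, Real.exp (-τ) * w l x *
        dI (fun W => Th T (CT κ) (PhB A W f)) x W) := by
    have e1 : Ex (fun x => ν (l x)) E (eT u w τ l) (fun W => ∑ x, Real.exp (-τ) * w l x *
        dI (fun W => Th T (CT κ) (PhB A W f)) x W) =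
        ∑ x, wT w τ l x * Ex (fun x => ν (l x)) E (eT u w τ l)
          (fun W => dTh T (CT κ) (PhB A W f) * dB A W f x) := by
      unfold Ex
      rw [← Finset.sum_congr rfl fun x _ => integral_const_mul (wT w τ l x) _,
        ← integral_finset_sum]
      · refine integral_congr_ae (Eventually.of_forall fun v => ?_)
        refine Finset.sum_congr rfl fun x _ => ?_
        show Real.exp (-τ) * w l x * _ = wT w τ l x * _
        rw [dI_Th hA f hT _ (WV_mem_LH (he l) v)]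
        rfl
      · intro x _
        exact (integrable_of_continuousOn (G := fun W => dTh T (CT κ) (PhB A W f) * dB A W f x)
          ((continuousOn_dTh_PhB hA f hT _).mul (contDiffOn_dB (n := 0) hA f x).continuousOn)
          (fun x => hR₀ (l x)) (he l)).const_mul _
    have e2 : Ex (fun x => ν (l x)) E (eT u w τ l)
        (fun W => ∑ x, wT w τ l x * (min (PhB A W f) T * lsB A W f x)) =
        ∑ x, wT w τ l x * Ex (fun x => ν (l x)) E (eT u w τ l)
          (fun W => min (PhB A W f) T * lsB A W f x) := by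
      unfold Ex
      rw [← Finset.sum_congr rfl fun x _ => integral_const_mul (wT w τ l x) _,
        ← integral_finset_sum]
      intro x _
      exact (integrable_of_continuousOn (continuousOn_min hA f T x)
          (fun x => hR₀ (l x)) (he l)).const_mul _
    have e3 : Ex (fun x => ν (l x)) E (eT u w τ l)
        (fun W => ∑ x, wT w τ l x * YB A W f x) =
        ∑ x, wT w τ l x * Ex (fun x => ν (l x)) E (eT u w τ l) (fun W => YB A W f x) := by
      unfold Ex
      rw [← Finset.sum_congr rfl fun x _ => integral_const_mul (wT w τ l x) _,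
        ← integral_finset_sum]
      intro x _
      exact (integrable_of_continuousOn (contDiffOn_YB (n := 0) hA f x).continuousOn
          (fun x => hR₀ (l x)) (he l)).const_mul _
    rw [e1, e2, e3, Finset.mul_sum, Finset.mul_sum, ← Finset.sum_sub_distrib]
    refine Finset.sum_le_sum fun x _ => ?_
    by_cases hx : w l x = 0
    · have : wT w τ l x = 0 := by
        unfold wT
        rw [hx, mul_zero]
      rw [this]
      simp
    · obtain ⟨hsm, hc2⟩ := hmov l x hx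
      have h2 := Ex_HH_ge (A := A) hA (fun x => ν (l x)) (fun x => hR₀ (l x)) (E := E) (he l) hf
        hT x hL hR hsm hc2
      have e4 : Ex (fun x => ν (l x)) E (eT u w τ l) (HH A f T x) =
          Ex (fun x => ν (l x)) E (eT u w τ l)
            (fun W => dTh T (CT κ) (PhB A W f) * dB A W f x) -
          3 / 4 * Ex (fun x => ν (l x)) E (eT u w τ l)
            (fun W => min (PhB A W f) T * lsB A W f x) := by
        unfold Ex HH
        rw [← integral_const_mul, integral_sub]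
        · exact integrable_of_continuousOn (G := fun W => dTh T (CT κ) (PhB A W f) * dB A W f x)
            ((continuousOn_dTh_PhB hA f hT _).mul (contDiffOn_dB (n := 0) hA f x).continuousOn)
            (fun x => hR₀ (l x)) (he l)
        · exact (integrable_of_continuousOn (continuousOn_min hA f T x)
            (fun x => hR₀ (l x)) (he l)).const_mul _
      rw [e4] at h2
      have hwx : 0 ≤ wT w τ l x := mul_nonneg (Real.exp_pos (-τ)).le (hw l x)
      nlinarith [mul_le_mul_of_nonneg_left h2 hwx]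
  have h3 := mul_le_mul_of_nonneg_left key hpr
  have h6 : -((∏ x, p (l x)) * Ex (fun x => ν (l x)) E (eT u w τ l)
      (fun W => ∑ x, Real.exp (-τ) * w l x * dI (fun W => Th T (CT κ) (PhB A W f)) x W)) ≤
      -(3 / 4 * ((∏ x, p (l x)) * Ex (fun x => ν (l x)) E (eT u w τ l)
        (fun W => ∑ x, wT w τ l x * (min (PhB A W f) T * lsB A W f x)))) +
      CN κ E L R c2 T * ((∏ x, p (l x)) * Ex (fun x => ν (l x)) E (eT u w τ l)
        (fun W => ∑ x, wT w τ l x * YB A W f x)) := by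
    linarith
  exact h6

end labels

end P365T2.H79
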