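import Vale.Agent.P365.T2.H79.Flow
import Vale.Agent.P365.T2.SmLaw755
import Vale.Agent.P365.T2.H784.Q0
import Vale.Agent.P365.T2.H536.Start2

/-!
# P365-T2, X-CNT: instances of the flow of `Av Th (PhB)`.

`smL_nuS`, `c2_nuS`; `YT_eq_YG`; `blkFlow` (generic stage, moving laws `nuS`), `blkFlow_St`
(stages `StW`).
-/

set_option linter.all false

open MeasureTheory Set Complex Filter Topology
open scoped ComplexConjugate

namespace P365T2.H79

open P365L P365O P365T1 P365L.TL Vale.Agent.P365.J376 P365T2.H784 P365T2.H211 P365L.T2.Path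
open P365T2.H213 P365T1.Smooth755 P365T2.H536 P365T1.Conc

/-! ### the smooth law -/

theorem smL_nuS {lam l : ℝ} (hl : 0 < l) (h : l < lam) : SmL (nuS lam l) lam (K1 lam l) :=
  ⟨rhoS lam l, rhoSd lam l, fun v => hasDerivAt_rhoS h.le v, continuous_rhoSd lam l,
    fun v => rhoS_nonneg hl h v, fun v => abs_rhoSd_le hl h v,
    fun v hv => P365T2.H722.rhoS_eq_zero hl h hv, P365T2.H722.nuS_eq_withDensity hl h⟩

/-- constant of the second Cauchy transform -/
noncomputable def c2S (lam l : ℝ) : ℝ := 5500 * ((1 + 2 * lam ^ 2) / l ^ 2 + 2)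

theorem c2_nuS {lam l : ℝ} (hl : 0 < l) (h : l < lam) : C2 (nuS lam l) (c2S lam l) := by
  intro s hs
  have h1 := norm_cauchy2_nuS hl h (z := s) hs.ne'
  have e : ∀ v : ℝ, tt s v ^ 2 = 1 / ((v : ℂ) - s) ^ 2 := fun v => by
    rw [tt, inv_pow, one_div]
  simp only [e]
  exact h1

/-! ### the weighted off-resonant energy as `YG` -/

section yg

variable {ι : Type*} [Fintype ι] [DecidableEq ι] {A : Matrix ι ι ℝ}
  {Λ : Type*} [Fintype Λ] {p : Λ → ℝ} {ν : Λ → Measure ℝ} {E : ℝ} {κ : Type*} [Fintype κ]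

/-- the family `(2 f, f²)` -/
noncomputable def F2 (f : κ → ι → ℝ) : κ × Fin 2 → ι → ℝ :=
  fun q => if q.2 = 0 then fun x => 2 * f q.1 x else fun x => f q.1 x ^ 2

theorem Yf_two {W : ι → ℂ} (f : ι → ℝ) (z : ι) :
    Yf A W (fun x => 2 * f x) z = 4 * Yf A W f z := by
  unfold Yf Nf
  rw [mul_div_assoc', Finset.mul_sum]
  congr 1
  refine Finset.sum_congr rfl fun a _ => ?_
  ring

theorem YB_eq_sum {W : ι → ℂ} (f : κ → ι → ℝ) (z : ι) :
    YB A W f z = ∑ q, Yf A W (F2 f q) z := by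
  rw [Fintype.sum_prod_type]
  refine Finset.sum_congr rfl fun k _ => ?_
  rw [Fin.sum_univ_two]
  simp only [F2, if_true]
  rw [if_neg (by decide : ¬ (1 : Fin 2) = 0), Yf_two]

theorem YT_eq_YG (hA : A.IsSymm) [∀ k, IsProbabilityMeasure (ν k)] {f : κ → ι → ℝ}
    {e w : (ι → Λ) → ι → ℝ} (he : ∀ l x, 0 < e l x) :
    YT A p ν E f e w = YG A p ν E (F2 f) e w := by
  unfold YT YG AvG
  refine Finset.sum_congr rfl fun l _ => ?_
  congr 1
  unfold Ex
  rw [integral_finset_sum]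
  · refine Finset.sum_congr rfl fun x _ => ?_
    rw [integral_const_mul]
    congr 1
    rw [← integral_finset_sum]
    · refine integral_congr_ae (Eventually.of_forall fun v => ?_)
      exact YB_eq_sum f x
    · intro q _
      exact integrable_Yf hA _ E (he l) (F2 f q) x
  · intro x _
    refine Integrable.const_mul ?_ _
    have : (fun v => YB A (WV E (e l) v) f x) = fun v => ∑ q, Yf A (WV E (e l) v) (F2 f q) x := by
      funext v
      exact YB_eq_sum f x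
    rw [this]
    exact integrable_finset_sum _ fun q _ => integrable_Yf hA _ E (he l) (F2 f q) x

end yg

/-! ### generic stage with moving laws `nuS` -/

/-- the constant of the law error, `T ≥ 1` -/
noncomputable def CB (κ : Type*) [Fintype κ] (E lam : ℝ) : ℝ :=
  ((c2S lam (lam * tau0 / 2) * (1 + CT κ + 960 * (Fintype.card κ : ℝ)) +
    (2 + 1440 * (Fintype.card κ : ℝ)) * (320 * (Fintype.card κ : ℝ)) *
      (K1 lam (lam * tau0 / 2) * (2 * lam + 1) ^ 2 * Real.pi))) * (20 * (1 + E ^ 2))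

theorem CN_le {κ : Type*} [Fintype κ] {E L R c2 T : ℝ} (hR : 0 ≤ R) (hc2 : 0 ≤ c2)
    (hT : 1 ≤ T) : CN κ E L R c2 T ≤ T * ((c2 * (1 + CT κ + 960 * (Fintype.card κ : ℝ)) +
    (2 + 1440 * (Fintype.card κ : ℝ)) * (320 * (Fintype.card κ : ℝ)) *
      (R * (2 * L + 1) ^ 2 * Real.pi))) * (20 * (1 + E ^ 2)) := by
  unfold CN CL
  have hpi := Real.pi_pos
  have hCT := CT_nonneg κ
  have hT0 : 0 < T := by linarith
  have h3 : 3 / T ≤ 3 := by
    rw [div_le_iff₀ hT0]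
    linarith
  have hn : (0 : ℝ) ≤ Fintype.card κ := by positivity
  obtain ⟨n, hn'⟩ : ∃ n : ℝ, n = Fintype.card κ := ⟨_, rfl⟩
  rw [← hn'] at hn ⊢
  obtain ⟨P, hP⟩ : ∃ P : ℝ, P = R * (2 * L + 1) ^ 2 * Real.pi := ⟨_, rfl⟩
  have hP0 : 0 ≤ P := by rw [hP]; positivity
  rw [← hP]
  refine mul_le_mul_of_nonneg_right ?_ (by positivity)
  have h4 : (T + CT κ + 3 / 2 * (320 * n) * 2) * c2 ≤ T * (c2 * (1 + CT κ + 960 * n)) := by
    have : T + CT κ + 3 / 2 * (320 * n) * 2 ≤ T * (1 + CT κ + 960 * n) := by nlinarith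
    calc _ ≤ (T * (1 + CT κ + 960 * n)) * c2 := mul_le_mul_of_nonneg_right this hc2
      _ = _ := by ring
  have h5 : (2 + 3 / 2 * (320 * n) * (3 / T)) * (320 * n) * P ≤
      T * ((2 + 1440 * n) * (320 * n) * P) := by
    have h6 : 2 + 3 / 2 * (320 * n) * (3 / T) ≤ 2 + 1440 * n := by nlinarith
    have h7 : 0 ≤ (320 * n) * P := by positivity
    have h8 : (2 + 3 / 2 * (320 * n) * (3 / T)) * ((320 * n) * P) ≤
        (2 + 1440 * n) * ((320 * n) * P) := mul_le_mul_of_nonneg_right h6 h7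
    have h9 : (2 + 1440 * n) * ((320 * n) * P) ≤ T * ((2 + 1440 * n) * ((320 * n) * P)) := by
      have : 0 ≤ (2 + 1440 * n) * ((320 * n) * P) := by positivity
      nlinarith
    calc _ = (2 + 3 / 2 * (320 * n) * (3 / T)) * ((320 * n) * P) := by ring
      _ ≤ _ := h8.trans h9
      _ = _ := by ring
  calc _ ≤ T * (c2 * (1 + CT κ + 960 * n)) + T * ((2 + 1440 * n) * (320 * n) * P) :=
        add_le_add h4 h5
    _ = _ := by ring

theorem tau0_facts {lam : ℝ} (hlam : 0 < lam) :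
    0 < lam * tau0 / 2 ∧ lam * tau0 / 2 < lam := by
  have h1 : 0 < tau0 := by unfold tau0; norm_num
  have h2 : tau0 < 1 := by unfold tau0; norm_num
  constructor
  · positivity
  · nlinarith

/-- **one block functional along a stage**, moving laws `nuS lam (lam * tau0 / 2)`, `T ≥ 1` -/
theorem blkFlow {ι : Type*} [Fintype ι] [DecidableEq ι] {A : Matrix ι ι ℝ} (hA : A.IsSymm)
    {Λ : Type*} [Fintype Λ] {p : Λ → ℝ} {ν : Λ → Measure ℝ} {lam E : ℝ} (hlam : 0 < lam)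
    (hp : ∀ k, 0 ≤ p k) (hprob : ∀ k, IsProbabilityMeasure (ν k)) {R₀ : ℝ}
    (hR₀ : ∀ k, ν k (Icc (-R₀) R₀)ᶜ = 0) {u w : (ι → Λ) → ι → ℝ}
    (hmov : ∀ l x, w l x ≠ 0 → ν (l x) = nuS lam (lam * tau0 / 2))
    (hu : ∀ l x, 0 < u l x) (hw : ∀ l x, 0 ≤ w l x) {κ : Type*} [Fintype κ]
    {f : κ → ι → ℝ} (hf : ∀ k x, |f k x| ≤ 1) {T : ℝ} (hT : 1 ≤ T) (τ : ℝ) :
    ∃ d, HasDerivAt (fun τ => AvG p ν E (eT u w τ) fun _ W => Th T (CT κ) (PhB A W f)) d τ ∧
      d ≤ -(3 / 4 * AvG p ν E (eT u w τ) fun l W =>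
          ∑ x, wT w τ l x * (min (PhB A W f) T * lsB A W f x)) +
        CB κ E lam * T * YG A p ν E (F2 f) (eT u w τ) (wT w τ) := by
  haveI := hprob
  obtain ⟨hl, hl'⟩ := tau0_facts hlam
  have hK := K1_nonneg hl hl'
  have hc := (c2_nuS hl hl').nonneg
  have hT0 : 0 < T := by linarith
  obtain ⟨d, hd, hd'⟩ := flow_Th (p := p) (ν := ν) (E := E) hA hp hR₀ hu hw hlam.le hK
    (c2 := c2S lam (lam * tau0 / 2)) (fun l x hx => by
      rw [hmov l x hx]
      exact ⟨smL_nuS hl hl', c2_nuS hl hl'⟩) hf hT0 τ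
  refine ⟨d, hd, hd'.trans ?_⟩
  have he : ∀ l x, 0 < eT u w τ l x := fun l x => by
    have := mul_nonneg (Real.exp_pos (-τ)).le (hw l x)
    have := hu l x
    unfold eT
    linarith
  have hwT : ∀ l x, 0 ≤ wT w τ l x := fun l x => mul_nonneg (Real.exp_pos (-τ)).le (hw l x)
  rw [YT_eq_YG hA he]
  have h1 : CN κ E lam (K1 lam (lam * tau0 / 2)) (c2S lam (lam * tau0 / 2)) T ≤
      CB κ E lam * T := by
    refine (CN_le hK hc hT).trans (le_of_eq ?_)
    unfold CB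
    generalize c2S lam (lam * tau0 / 2) = a1
    generalize K1 lam (lam * tau0 / 2) = a2
    generalize CT κ = a3
    ring
  have h2 := YG_nonneg (A := A) (ν := ν) (E := E) (f := F2 f) hp he hwT
  have h3 := mul_le_mul_of_nonneg_right h1 h2
  unfold DT
  linarith

/-- `F2` in the names of 536 -/
theorem F2_eq_Ff {N : ℕ} [NeZero N] {κ : Type*} (f : κ → Tor N → ℝ) :
    F2 f = fun q : κ × Fin 2 => Ff (f q.1) q.2 := by
  funext q
  obtain ⟨k, i⟩ := q
  fin_cases i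
  · rfl
  · rfl

/-- **one block functional along a good stage** -/
theorem blkFlow_St {N : ℕ} [NeZero N] {W : StW N} {lam E C1 η : ℝ} (hlam : 0 < lam)
    (h : W.Ok lam E C1 η) {κ : Type} [Fintype κ] {f : κ → Tor N → ℝ}
    (hf : ∀ k x, |f k x| ≤ 1) {T : ℝ} (hT : 1 ≤ T) (τ : ℝ) :
    ∃ d, HasDerivAt (fun τ => W.Av E τ fun _ V => Th T (CT κ) (PhB (AT N) V f)) d τ ∧
      d ≤ -(3 / 4 * W.Av E τ fun l V =>
          ∑ x, wT W.w τ l x * (min (PhB (AT N) V f) T * lsB (AT N) V f x)) +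
        CB κ E lam * T * W.Yg E (F2 f) τ := by
  obtain ⟨b, hb, hu⟩ := h.u_pos
  exact blkFlow (AT_symm N) hlam h.p_nonneg h.prob h.supp h.mov (fun l x => hb.trans_le (hu l x))
    h.w_nonneg hf hT τ

end P365T2.H79
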