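import Vale.Agent.P365.T2.H79.OneVar
import Vale.Agent.P365.T2.H784.Heavy
import Vale.Agent.P365.T2.H211.Psi

/-!
# P365-T2, X-CNT, one site.

The block functional `PhB A W f = ∑ k, (4 En (f k) + En (f k)²)` on the line of one potential is
`FF E0 b s`, its derivative in the absorption of the site is `lsB + Re (i b t²)`, and
`2 m del² ≤ C0 * lsB` for `|f k| ≤ 1`.
-/

set_option linter.all false

open MeasureTheory Set Complex
open scoped ComplexConjugate

namespace P365T2.H79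

open P365L P365O P365T1 Vale.Agent.P365.J376 P365T2.H784 P365T2.H211

section one

variable {ι : Type*} [Fintype ι] [DecidableEq ι] {A : Matrix ι ι ℝ} {W : ι → ℂ}

/-- the energy with `z` removed -/
noncomputable def E0 (A : Matrix ι ι ℝ) (W : ι → ℂ) (f : ι → ℝ) (z : ι) : ℝ :=
  ∑ a, ∑ b, (-(W a).im) * (-(W b).im) * ‖Gi A W z a b‖ ^ 2 * (f a - f b) ^ 2

/-- **the energy is one pole in the potential of `z`** -/
theorem En_eq_E0 (hA : A.IsSymm) (hW : ∀ x, (W x).im < 0) (f : ι → ℝ) (z : ι) :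
    En A W f = E0 A W f z + (bz A W f z * Gr A W z z).re := by
  set g := Gr A W z z with hg
  have hS := Sf_pos hA hW z
  have hm := mm_eq_Sf hA hW z
  have e1 : (c0 A W f z * g).re = ∑ a, ∑ b, (-(W a).im) * (-(W b).im) * (f a - f b) ^ 2 *
      (conj (Gi A W z a b) * gw A W z a * gw A W z b * g).re := by
    rw [c0, Finset.sum_mul, Complex.re_sum]
    refine Finset.sum_congr rfl fun a _ => ?_
    rw [Finset.sum_mul, Complex.re_sum]
    refine Finset.sum_congr rfl fun b _ => ?_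
    rw [mul_assoc, Complex.re_ofReal_mul]
  have e2 : 2 * Sf A W z * Nf A W f z - 2 * Bf A W f z ^ 2 =
      ∑ a, ∑ b, ((-(W a).im) * ‖gw A W z a‖ ^ 2) * ((-(W b).im) * ‖gw A W z b‖ ^ 2) *
        (f a - f b) ^ 2 := by
    have := sum_sum_sq (fun a => (-(W a).im) * ‖gw A W z a‖ ^ 2) (fun a => f a - f z)
    rw [Sf, Nf, Bf, ← this]
    refine Finset.sum_congr rfl fun a _ => Finset.sum_congr rfl fun b _ => ?_
    congr 1
    ring
  have e3 : En A W f = E0 A W f z + 2 * (c0 A W f z * g).re +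
      ‖g‖ ^ 2 * (2 * Sf A W z * Nf A W f z - 2 * Bf A W f z ^ 2) := by
    rw [e1, e2, En, E0, Finset.mul_sum, Finset.mul_sum, ← Finset.sum_add_distrib,
      ← Finset.sum_add_distrib]
    refine Finset.sum_congr rfl fun a _ => ?_
    rw [Finset.mul_sum, Finset.mul_sum, ← Finset.sum_add_distrib, ← Finset.sum_add_distrib]
    refine Finset.sum_congr rfl fun b _ => ?_
    have e4 : KK A W a b = ‖Gi A W z a b‖ ^ 2 +
        2 * (conj (Gi A W z a b) * gw A W z a * gw A W z b * g).re +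
        ‖gw A W z a‖ ^ 2 * ‖gw A W z b‖ ^ 2 * ‖g‖ ^ 2 := by
      rw [KK, Gr_eq_Gi hA hW z a b, ← hg]
      have e5 : conj (Gi A W z a b) * gw A W z a * gw A W z b * g =
          conj (Gi A W z a b) * (gw A W z a * gw A W z b * g) := by ring
      rw [e5]
      have e6 : ‖gw A W z a‖ ^ 2 * ‖gw A W z b‖ ^ 2 * ‖g‖ ^ 2 =
          ‖gw A W z a * gw A W z b * g‖ ^ 2 := by
        rw [norm_mul, norm_mul]
        ring
      rw [e6]
      generalize gw A W z a * gw A W z b * g = q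
      generalize Gi A W z a b = r
      rw [← Complex.normSq_eq_norm_sq, ← Complex.normSq_eq_norm_sq, ← Complex.normSq_eq_norm_sq,
        Complex.normSq_apply, Complex.normSq_apply, Complex.normSq_apply]
      simp only [Complex.add_re, Complex.add_im, Complex.mul_re, Complex.conj_re, Complex.conj_im]
      ring
    rw [e4]
    ring
  have e7 : (bz A W f z * g).re = 2 * (c0 A W f z * g).re +
      2 * (Nf A W f z - Bf A W f z ^ 2 / Sf A W z) * g.im := by
    have h8 : bz A W f z * g = 2 * (c0 A W f z * g) -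
        ((2 * (Nf A W f z - Bf A W f z ^ 2 / Sf A W z) : ℝ) : ℂ) * (I * g) := by
      rw [bz]
      push_cast
      ring
    rw [h8, Complex.sub_re, Complex.re_ofReal_mul]
    have h9 : (2 * (c0 A W f z * g)).re = 2 * (c0 A W f z * g).re := by
      generalize c0 A W f z * g = t
      simp
    have h10 : (I * g).re = -g.im := by simp
    rw [h9, h10]
    ring
  have h11 : g.im = Sf A W z * ‖g‖ ^ 2 := hm
  rw [e3, e7, h11]
  field_simp
  ring

theorem E0_upd (hA : A.IsSymm) (hW : ∀ x, (W x).im < 0) {z : ι} {v : ℂ} (hv : v.im < 0)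
    (f : ι → ℝ) : E0 A (Function.update W z v) f z = E0 A W f z := by
  unfold E0
  refine Finset.sum_congr rfl fun a _ => Finset.sum_congr rfl fun b _ => ?_
  rw [Gi_upd hA hW hv]
  by_cases ha : a = z
  · subst ha
    rw [Gi_left hA hW]
    simp
  · by_cases hb : b = z
    · subst hb
      rw [Gi_right hA hW]
      simp
    · rw [Function.update_of_ne ha, Function.update_of_ne hb]

theorem E0_rez (hA : A.IsSymm) (hW : ∀ x, (W x).im < 0) (f : ι → ℝ) (z : ι) (u : ℝ) :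
    E0 A (rez W z u) f z = E0 A W f z :=
  E0_upd hA hW (by rw [rez_im]; exact hW z) f

theorem Sf_rez (hA : A.IsSymm) (hW : ∀ x, (W x).im < 0) (z : ι) (u : ℝ) :
    Sf A (rez W z u) z = Sf A W z := by
  have hv : ((u : ℂ) + ((W z).im : ℂ) * I).im < 0 := by rw [rez_im]; exact hW z
  unfold Sf
  refine Finset.sum_congr rfl fun a _ => ?_
  have h4 : gw A (rez W z u) z a = gw A W z a := gw_upd hA hW hv a
  rw [h4]
  by_cases ha : a = z
  · subst ha
    rw [rez, Function.update_self, rez_im]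
  · rw [rez, Function.update_of_ne ha]

theorem sz_im_eq (hA : A.IsSymm) (hW : ∀ x, (W x).im < 0) (z : ι) : (sz A W z).im = Sf A W z := by
  rw [sz_im, sg_im hA hW]
  ring

theorem En_rez' (hA : A.IsSymm) (hW : ∀ x, (W x).im < 0) (f : ι → ℝ) (z : ι) (u : ℝ) :
    En A (rez W z u) f = E0 A W f z + (bz A W f z * ((u : ℂ) - sz A W z)⁻¹).re := by
  rw [En_eq_E0 hA (rez_neg hW z u) f z, E0_rez hA hW, bz_rez hA hW, Gr_rez hA hW]

/-- `m_z > 0` and `muf = Bf / Sf` -/
theorem muf_eq_div (hA : A.IsSymm) (hW : ∀ x, (W x).im < 0) (f : ι → ℝ) (z : ι) :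
    muf A W f z = Bf A W f z / Sf A W z := by
  have h1 := mm_muf_eq hA hW f z
  have h2 := mm_eq_Sf hA hW z
  have hS := Sf_pos hA hW z
  have hg : 0 < ‖Gr A W z z‖ ^ 2 := pow_pos (norm_pos_iff.2 (Gr_self_ne_zero hA hW z)) 2
  rw [h2] at h1
  rw [eq_div_iff hS.ne']
  have h3 : ‖Gr A W z z‖ ^ 2 * (muf A W f z * Sf A W z) = ‖Gr A W z z‖ ^ 2 * Bf A W f z := by
    linear_combination h1
  exact mul_left_cancel₀ hg.ne' h3

/-- `N_f = B_{f²} - 2 f_z B_f` -/
theorem Nf_eq_Bf (f : ι → ℝ) (z : ι) :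
    Nf A W f z = Bf A W (fun y => f y ^ 2) z - 2 * f z * Bf A W f z := by
  unfold Nf Bf
  rw [Finset.mul_sum, ← Finset.sum_sub_distrib]
  refine Finset.sum_congr rfl fun a _ => ?_
  ring

theorem Nf_sq_le (hW : ∀ x, (W x).im < 0) {f : ι → ℝ} (hf : ∀ x, |f x| ≤ 1) (z : ι) :
    Nf A W (fun y => f y ^ 2) z ≤ 4 * Nf A W f z := by
  unfold Nf
  rw [Finset.mul_sum]
  refine Finset.sum_le_sum fun a _ => ?_
  have h1 : (f a ^ 2 - f z ^ 2) ^ 2 ≤ 4 * (f a - f z) ^ 2 := by
    have e : (f a ^ 2 - f z ^ 2) ^ 2 = (f a + f z) ^ 2 * (f a - f z) ^ 2 := by ring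
    rw [e]
    have h2 := abs_le.1 (hf a)
    have h3 := abs_le.1 (hf z)
    have h4 : (f a + f z) ^ 2 ≤ 4 := by nlinarith
    nlinarith [sq_nonneg (f a - f z)]
  have h5 : 0 ≤ (-(W a).im) * ‖gw A W z a‖ ^ 2 :=
    mul_nonneg (by linarith [hW a]) (sq_nonneg _)
  nlinarith

theorem Nf_le_Sf (hW : ∀ x, (W x).im < 0) {f : ι → ℝ} (hf : ∀ x, |f x| ≤ 1) (z : ι) :
    Nf A W f z ≤ 4 * Sf A W z := by
  unfold Nf Sf
  rw [Finset.mul_sum]
  refine Finset.sum_le_sum fun a _ => ?_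
  have h2 := abs_le.1 (hf a)
  have h3 := abs_le.1 (hf z)
  have h4 : (f a - f z) ^ 2 ≤ 4 := by nlinarith
  have h5 : 0 ≤ (-(W a).im) * ‖gw A W z a‖ ^ 2 :=
    mul_nonneg (by linarith [hW a]) (sq_nonneg _)
  nlinarith

/-! ### the block functional -/

variable {κ : Type*} [Fintype κ]

/-- the pole coefficient of the block functional -/
noncomputable def bB (A : Matrix ι ι ℝ) (W : ι → ℂ) (f : κ → ι → ℝ) (z : ι) : ℂ :=
  ∑ k, (4 * bz A W (f k) z + bz A W (fun y => f k y ^ 2) z)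

/-- the off-resonant far energy of the block functional -/
noncomputable def NB (A : Matrix ι ι ℝ) (W : ι → ℂ) (f : κ → ι → ℝ) (z : ι) : ℝ :=
  ∑ k, (4 * Nf A W (f k) z + Nf A W (fun y => f k y ^ 2) z)

/-- the block functional with `z` removed -/
noncomputable def E0B (A : Matrix ι ι ℝ) (W : ι → ℂ) (f : κ → ι → ℝ) (z : ι) : ℝ :=
  ∑ k, (4 * E0 A W (f k) z + E0 A W (fun y => f k y ^ 2) z)

/-- derivative of the block functional in the absorption of `z` -/
noncomputable def dB (A : Matrix ι ι ℝ) (W : ι → ℂ) (f : κ → ι → ℝ) (z : ι) : ℝ :=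
  ∑ k, (4 * dEn A W (f k) z + dEn A W (fun y => f k y ^ 2) z)

/-- off-resonant energy of the block functional -/
noncomputable def YB (A : Matrix ι ι ℝ) (W : ι → ℂ) (f : κ → ι → ℝ) (z : ι) : ℝ :=
  ∑ k, (4 * Yf A W (f k) z + Yf A W (fun y => f k y ^ 2) z)

theorem YB_eq (f : κ → ι → ℝ) (z : ι) : YB A W f z = NB A W f z / (1 + ‖sg A W z‖ ^ 2) := by
  unfold YB NB Yf
  rw [Finset.sum_div]
  refine Finset.sum_congr rfl fun k _ => ?_
  ring

theorem NB_nonneg (hW : ∀ x, (W x).im < 0) (f : κ → ι → ℝ) (z : ι) : 0 ≤ NB A W f z :=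
  Finset.sum_nonneg fun k _ => by
    have h1 := Nf_nonneg hW (A := A) (f k) z
    have h2 := Nf_nonneg hW (A := A) (fun y => f k y ^ 2) z
    linarith

theorem norm_bB_le (hA : A.IsSymm) (hW : ∀ x, (W x).im < 0) (f : κ → ι → ℝ) (z : ι) :
    ‖bB A W f z‖ ≤ 10 * NB A W f z := by
  unfold bB NB
  rw [Finset.mul_sum]
  refine (norm_sum_le _ _).trans (Finset.sum_le_sum fun k _ => ?_)
  refine (norm_add_le _ _).trans ?_
  rw [norm_mul, Complex.norm_ofNat]
  have h1 := norm_bz_le hA hW (f k) z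
  have h2 := norm_bz_le hA hW (fun y => f k y ^ 2) z
  linarith

theorem PhB_rez (hA : A.IsSymm) (hW : ∀ x, (W x).im < 0) (f : κ → ι → ℝ) (z : ι) (u : ℝ) :
    PhB A (rez W z u) f = FF (E0B A W f z) (bB A W f z) (sz A W z) u := by
  unfold PhB PhE FF E0B bB tt
  simp only [En_rez' hA hW]
  rw [Finset.sum_mul, Complex.re_sum, ← Finset.sum_add_distrib]
  refine Finset.sum_congr rfl fun k _ => ?_
  rw [add_mul, Complex.add_re, mul_assoc]
  have h9 : (4 * (bz A W (f k) z * ((u : ℂ) - sz A W z)⁻¹)).re =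
      4 * (bz A W (f k) z * ((u : ℂ) - sz A W z)⁻¹).re := by
    generalize bz A W (f k) z * ((u : ℂ) - sz A W z)⁻¹ = t
    simp
  rw [h9]
  ring

theorem tt_sz (hA : A.IsSymm) (hW : ∀ x, (W x).im < 0) (z : ι) (u : ℝ) :
    tt (sz A W z) u = Gr A (rez W z u) z z := by
  rw [Gr_rez hA hW, tt]

theorem mm_rez (hA : A.IsSymm) (hW : ∀ x, (W x).im < 0) (z : ι) (u : ℝ) :
    mm A (rez W z u) z = (tt (sz A W z) u).im := by
  rw [mm, tt_sz hA hW]

theorem dB_rez (hA : A.IsSymm) (hW : ∀ x, (W x).im < 0) (f : κ → ι → ℝ) (z : ι) (u : ℝ) :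
    dB A (rez W z u) f z = lsB A (rez W z u) f z +
      (I * bB A W f z * tt (sz A W z) u ^ 2).re := by
  unfold dB lsB bB
  have h0 : ∀ g : ι → ℝ, lawErr A (rez W z u) g z =
      (I * bz A W g z * tt (sz A W z) u ^ 2).re := by
    intro g
    rw [lawErr_rez hA hW, tt, inv_pow, one_div]
  simp only [dEn_split hA (rez_neg hW z u), h0]
  rw [Finset.mul_sum, Finset.sum_mul, Complex.re_sum, ← Finset.sum_add_distrib]
  refine Finset.sum_congr rfl fun k _ => ?_
  have h1 : I * (4 * bz A W (f k) z + bz A W (fun y => f k y ^ 2) z) * tt (sz A W z) u ^ 2 =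
      4 * (I * bz A W (f k) z * tt (sz A W z) u ^ 2) +
        I * bz A W (fun y => f k y ^ 2) z * tt (sz A W z) u ^ 2 := by ring
  rw [h1, Complex.add_re]
  have h9 : (4 * (I * bz A W (f k) z * tt (sz A W z) u ^ 2)).re =
      4 * (I * bz A W (f k) z * tt (sz A W z) u ^ 2).re := by
    generalize I * bz A W (f k) z * tt (sz A W z) u ^ 2 = t
    simp
  rw [h9]
  ring

theorem Bf_rez (hA : A.IsSymm) (hW : ∀ x, (W x).im < 0) (f : ι → ℝ) (z : ι) (u : ℝ) :
    Bf A (rez W z u) f z = Bf A W f z :=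
  Bf_upd hA hW (by rw [rez_im]; exact hW z) f

/-- the loss on the line -/
theorem lsB_rez (hA : A.IsSymm) (hW : ∀ x, (W x).im < 0) (f : κ → ι → ℝ) (z : ι) (u : ℝ) :
    lsB A (rez W z u) f z = ∑ k, (2 * (tt (sz A W z) u).im *
      (4 * (Bf A W (f k) z / Sf A W z) ^ 2 + (Bf A W (fun y => f k y ^ 2) z / Sf A W z) ^ 2)) := by
  unfold lsB lossS
  refine Finset.sum_congr rfl fun k _ => ?_
  rw [muf_eq_div hA (rez_neg hW z u), muf_eq_div hA (rez_neg hW z u), Bf_rez hA hW, Bf_rez hA hW,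
    Sf_rez hA hW, mm_rez hA hW]
  ring

theorem tt_im_nonneg {s : ℂ} (hs : 0 < s.im) (u : ℝ) : 0 ≤ (tt s u).im := by
  rw [tt_im hs]
  positivity

/-- the constant of the kick -/
noncomputable def C0k (κ : Type*) [Fintype κ] : ℝ := 28800 * (Fintype.card κ : ℝ)

/-- **kick**: `2 m del² ≤ C0 * loss` -/
theorem kick_le (hA : A.IsSymm) (hW : ∀ x, (W x).im < 0) {f : κ → ι → ℝ}
    (hf : ∀ k x, |f k x| ≤ 1) (z : ι) (u : ℝ) :
    2 * (tt (sz A W z) u).im * del (bB A W f z) (sz A W z) u ^ 2 ≤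
      C0k κ * lsB A (rez W z u) f z := by
  have hs := sz_im_pos hA hW z
  have hS := Sf_pos hA hW z
  have hm := tt_im_nonneg hs u
  have h1 := abs_del_le (b := bB A W f z) hs u
  have h2 := norm_bB_le hA hW f z
  rw [sz_im_eq hA hW] at h1
  set Q : κ → ℝ := fun k => Nf A W (f k) z / Sf A W z with hQ
  have hQ0 : ∀ k, 0 ≤ Q k := fun k => div_nonneg (Nf_nonneg hW (A := A) (f k) z) hS.le
  have h3 : NB A W f z ≤ ∑ k, 8 * Nf A W (f k) z := by
    refine Finset.sum_le_sum fun k _ => ?_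
    have := Nf_sq_le (A := A) hW (hf k) z
    linarith
  have h4 : |del (bB A W f z) (sz A W z) u| ≤ 120 * ∑ k, Q k := by
    refine h1.trans ?_
    have h5 : ‖bB A W f z‖ / Sf A W z ≤ 80 * ∑ k, Q k := by
      rw [div_le_iff₀ hS]
      calc ‖bB A W f z‖ ≤ 10 * ∑ k, 8 * Nf A W (f k) z := by linarith
        _ = 80 * ∑ k, Q k * Sf A W z := by
            rw [← Finset.mul_sum]
            simp only [hQ]
            rw [← mul_assoc]
            norm_num
            refine Finset.sum_congr rfl fun k _ => ?_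
            field_simp
        _ = _ := by
            rw [← Finset.sum_mul]
            ring
    linarith
  have h6 : del (bB A W f z) (sz A W z) u ^ 2 ≤ (120 * ∑ k, Q k) ^ 2 := by
    rw [← sq_abs]
    gcongr
  have h7 : (∑ k, Q k) ^ 2 ≤ (Fintype.card κ : ℝ) * ∑ k, Q k ^ 2 := by
    have := Finset.sum_mul_sq_le_sq_mul_sq Finset.univ (fun _ : κ => (1 : ℝ)) Q
    simpa using this
  have h8 : ∀ k, Q k ^ 2 ≤ 2 * (4 * (Bf A W (f k) z / Sf A W z) ^ 2 +
      (Bf A W (fun y => f k y ^ 2) z / Sf A W z) ^ 2) := by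
    intro k
    have e1 : Q k = Bf A W (fun y => f k y ^ 2) z / Sf A W z -
        2 * f k z * (Bf A W (f k) z / Sf A W z) := by
      simp only [hQ]
      rw [Nf_eq_Bf]
      ring
    rw [e1]
    have h9 := abs_le.1 (hf k z)
    obtain ⟨p, hp⟩ : ∃ p, p = Bf A W (fun y => f k y ^ 2) z / Sf A W z := ⟨_, rfl⟩
    obtain ⟨q, hq⟩ : ∃ q, q = Bf A W (f k) z / Sf A W z := ⟨_, rfl⟩
    rw [← hp, ← hq]
    have h10 : f k z ^ 2 ≤ 1 := by nlinarith
    nlinarith [sq_nonneg (p + 2 * f k z * q), mul_le_mul_of_nonneg_right h10 (sq_nonneg q)]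
  rw [lsB_rez hA hW]
  calc 2 * (tt (sz A W z) u).im * del (bB A W f z) (sz A W z) u ^ 2
      ≤ 2 * (tt (sz A W z) u).im * (14400 * ((Fintype.card κ : ℝ) * ∑ k, Q k ^ 2)) := by
        refine mul_le_mul_of_nonneg_left ?_ (by positivity)
        nlinarith
    _ ≤ 2 * (tt (sz A W z) u).im * (14400 * ((Fintype.card κ : ℝ) *
        ∑ k, 2 * (4 * (Bf A W (f k) z / Sf A W z) ^ 2 +
      (Bf A W (fun y => f k y ^ 2) z / Sf A W z) ^ 2))) := by
        refine mul_le_mul_of_nonneg_left ?_ (by positivity)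
        refine mul_le_mul_of_nonneg_left ?_ (by norm_num)
        exact mul_le_mul_of_nonneg_left (Finset.sum_le_sum fun k _ => h8 k) (by positivity)
    _ = _ := by
        rw [C0k, ← Finset.mul_sum, ← Finset.mul_sum]
        ring

theorem norm_bB_le_sz (hA : A.IsSymm) (hW : ∀ x, (W x).im < 0) {f : κ → ι → ℝ}
    (hf : ∀ k x, |f k x| ≤ 1) (z : ι) :
    ‖bB A W f z‖ ≤ 320 * (Fintype.card κ : ℝ) * (sz A W z).im := by
  rw [sz_im_eq hA hW]
  have h2 := norm_bB_le hA hW f z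
  have h3 : NB A W f z ≤ ∑ _k : κ, 32 * Sf A W z := by
    refine Finset.sum_le_sum fun k _ => ?_
    have h4 := Nf_sq_le (A := A) hW (hf k) z
    have h5 := Nf_le_Sf (A := A) hW (hf k) z
    linarith
  rw [Finset.sum_const, Finset.card_univ, nsmul_eq_mul] at h3
  linarith

end one

end P365T2.H79
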