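import Mathlib

/-!
# P365-T2, X-CNT, one variable: the law error of a smooth function of an energy, without logarithm.

On the line of one potential the energy is `F v = F0 + Re (b t)`, `t = 1/(v - s)`, and its
derivative is `2 Im t * del`, `del = -Re b / (2 Im s) - Re (i b t)`.  For a law with a `C¹` density
of compact support, `|∫ (T1 (F) del)' dν| ≤ C ‖b‖ / (1 + ‖s‖²)`, no `log (1 / Im s)`.
-/

set_option linter.all false

open MeasureTheory Set Complex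

namespace P365T2.H79

/-! ### the circle -/

/-- `1/(v - s)` -/
noncomputable def tt (s : ℂ) (v : ℝ) : ℂ := ((v : ℂ) - s)⁻¹

/-- the energy on the line -/
noncomputable def FF (F0 : ℝ) (b s : ℂ) (v : ℝ) : ℝ := F0 + (b * tt s v).re

/-- the logarithmic derivative of the energy on the line -/
noncomputable def del (b s : ℂ) (v : ℝ) : ℝ := -b.re / (2 * s.im) - (I * b * tt s v).re

variable {s : ℂ} {b : ℂ} {F0 : ℝ}

theorem sub_ne (hs : 0 < s.im) (v : ℝ) : (v : ℂ) - s ≠ 0 := by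
  intro h
  have := congrArg Complex.im h
  simp at this
  exact hs.ne' this

theorem hasDerivAt_tt (hs : 0 < s.im) (v : ℝ) : HasDerivAt (tt s) (-(tt s v) ^ 2) v := by
  have h1 : HasDerivAt (fun v : ℝ => (v : ℂ) - s) 1 v := by
    simpa using (Complex.ofRealCLM.hasDerivAt (x := v)).sub_const s
  have h2 := h1.inv (sub_ne hs v)
  have h3 : -(tt s v) ^ 2 = -1 / ((v : ℂ) - s) ^ 2 := by
    rw [tt, inv_pow, neg_div, one_div]
  rw [h3]
  exact h2

theorem continuous_tt (hs : 0 < s.im) : Continuous (tt s) :=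
  continuous_iff_continuousAt.2 fun v => (hasDerivAt_tt hs v).continuousAt

theorem normSq_sub (v : ℝ) : ‖(v : ℂ) - s‖ ^ 2 = (v - s.re) ^ 2 + s.im ^ 2 := by
  rw [← Complex.normSq_eq_norm_sq, Complex.normSq_apply]
  simp
  ring

theorem norm_tt_sq (v : ℝ) : ‖tt s v‖ ^ 2 = ((v - s.re) ^ 2 + s.im ^ 2)⁻¹ := by
  rw [tt, norm_inv, inv_pow, normSq_sub]

theorem tt_im (hs : 0 < s.im) (v : ℝ) : (tt s v).im = s.im * ‖tt s v‖ ^ 2 := by
  rw [norm_tt_sq, tt, Complex.inv_im, Complex.normSq_eq_norm_sq, normSq_sub]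
  simp
  rfl

theorem tt_re (hs : 0 < s.im) (v : ℝ) : (tt s v).re = (v - s.re) * ‖tt s v‖ ^ 2 := by
  rw [norm_tt_sq, tt, Complex.inv_re, Complex.normSq_eq_norm_sq, normSq_sub]
  simp
  rfl

theorem norm_tt_le (hs : 0 < s.im) (v : ℝ) : ‖tt s v‖ ≤ (s.im)⁻¹ := by
  have h1 : ‖tt s v‖ ^ 2 ≤ ((s.im)⁻¹) ^ 2 := by
    rw [norm_tt_sq, inv_pow]
    exact inv_anti₀ (by positivity) (by nlinarith [sq_nonneg (v - s.re)])
  exact le_of_sq_le_sq h1 (by positivity) |> fun h => h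
  where
    le_of_sq_le_sq {a c : ℝ} (h : a ^ 2 ≤ c ^ 2) (hc : 0 ≤ c) : a ≤ c := by
      by_contra hlt
      push Not at hlt
      nlinarith

theorem hasDerivAt_mul_tt (hs : 0 < s.im) (c : ℂ) (v : ℝ) :
    HasDerivAt (fun v => (c * tt s v).re) (-(c * tt s v ^ 2).re) v := by
  have h1 := (hasDerivAt_tt hs v).const_mul c
  have h2 := (Complex.reCLM.hasFDerivAt (x := c * tt s v)).comp_hasDerivAt v h1
  have h3 : -(c * tt s v ^ 2).re = Complex.reCLM (c * -(tt s v) ^ 2) := by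
    rw [Complex.reCLM_apply, mul_neg, Complex.neg_re]
  rw [h3]
  exact h2

/-- `-Re (b t²) = 2 Im t * del` -/
theorem neg_re_eq (hs : 0 < s.im) (b : ℂ) (v : ℝ) :
    -(b * tt s v ^ 2).re = 2 * (tt s v).im * del b s v := by
  have h1 := tt_im hs v
  have h2 : ‖tt s v‖ ^ 2 = (tt s v).re ^ 2 + (tt s v).im ^ 2 := by
    rw [← Complex.normSq_eq_norm_sq, Complex.normSq_apply]
    ring
  rw [h2] at h1
  unfold del
  obtain ⟨x, hx⟩ : ∃ x, x = (tt s v).re := ⟨_, rfl⟩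
  obtain ⟨y, hy⟩ : ∃ y, y = (tt s v).im := ⟨_, rfl⟩
  have e1 : (b * tt s v ^ 2).re = b.re * (x ^ 2 - y ^ 2) - b.im * (2 * x * y) := by
    rw [sq, Complex.mul_re, Complex.mul_re, Complex.mul_im, hx, hy]
    ring
  have e2 : (I * b * tt s v).re = -(b.im * x) - b.re * y := by
    simp only [Complex.mul_re, Complex.mul_im, Complex.I_re, Complex.I_im, hx, hy]
    ring
  rw [e1, e2, ← hy]
  rw [← hx, ← hy] at h1
  have h3 : y * (b.re / s.im) = b.re * (x ^ 2 + y ^ 2) := by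
    rw [← mul_div_assoc, div_eq_iff hs.ne']
    linear_combination b.re * h1
  have h4 : 2 * y * (-b.re / (2 * s.im)) = -(y * (b.re / s.im)) := by
    field_simp
  have h5 : 2 * y * (-b.re / (2 * s.im) - (-(b.im * x) - b.re * y)) =
      2 * y * (-b.re / (2 * s.im)) + 2 * y * (b.im * x + b.re * y) := by ring
  rw [h5, h4, h3]
  ring

theorem hasDerivAt_FF (hs : 0 < s.im) (v : ℝ) :
    HasDerivAt (FF F0 b s) (2 * (tt s v).im * del b s v) v := by
  rw [← neg_re_eq hs b v]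
  exact (hasDerivAt_mul_tt hs b v).const_add F0

theorem hasDerivAt_del (hs : 0 < s.im) (v : ℝ) :
    HasDerivAt (del b s) ((I * b * tt s v ^ 2).re) v := by
  have h := (hasDerivAt_mul_tt hs (I * b) v).const_sub (-b.re / (2 * s.im))
  rw [neg_neg] at h
  exact h

theorem continuous_FF (hs : 0 < s.im) : Continuous (FF F0 b s) :=
  continuous_iff_continuousAt.2 fun v => (hasDerivAt_FF hs v).continuousAt

theorem continuous_del (hs : 0 < s.im) : Continuous (del b s) :=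
  continuous_iff_continuousAt.2 fun v => (hasDerivAt_del hs v).continuousAt

theorem abs_del_le (hs : 0 < s.im) (v : ℝ) : |del b s v| ≤ 3 / 2 * (‖b‖ / s.im) := by
  unfold del
  have h1 : |b.re / (2 * s.im)| ≤ 1 / 2 * (‖b‖ / s.im) := by
    rw [abs_div, abs_of_pos (by positivity : 0 < 2 * s.im)]
    have := Complex.abs_re_le_norm b
    calc |b.re| / (2 * s.im) ≤ ‖b‖ / (2 * s.im) := by gcongr
      _ = _ := by field_simp
  have h2 : |(I * b * tt s v).re| ≤ ‖b‖ / s.im := by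
    refine (Complex.abs_re_le_norm _).trans ?_
    rw [norm_mul, norm_mul, norm_I, one_mul, div_eq_mul_inv]
    exact mul_le_mul_of_nonneg_left (norm_tt_le hs v) (norm_nonneg _)
  have h3 : -b.re / (2 * s.im) = -(b.re / (2 * s.im)) := by ring
  rw [h3]
  refine (abs_sub _ _).trans ?_
  rw [abs_neg]
  linarith

/-! ### the square of `t` -/

theorem integral_norm_tt_sq_le (hs : 0 < s.im) {L : ℝ} (hL : 0 ≤ L) :
    ∫ v in (-L)..L, ‖tt s v‖ ^ 2 ≤ Real.pi / s.im := by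
  have hd : ∀ v ∈ uIcc (-L) L, HasDerivAt (fun v : ℝ => (s.im)⁻¹ * Real.arctan ((v - s.re) / s.im))
      (‖tt s v‖ ^ 2) v := by
    intro v _
    have h1 : HasDerivAt (fun v : ℝ => (v - s.re) / s.im) (1 / s.im) v :=
      ((hasDerivAt_id v).sub_const s.re).div_const s.im
    have h2 := (h1.arctan).const_mul (s.im)⁻¹
    have h3 : ‖tt s v‖ ^ 2 = (s.im)⁻¹ * (1 / (1 + ((v - s.re) / s.im) ^ 2) * (1 / s.im)) := by
      rw [norm_tt_sq]
      field_simp
      ring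
    rw [h3]
    exact h2
  rw [intervalIntegral.integral_eq_sub_of_hasDerivAt hd
    (((continuous_tt hs).norm.pow 2).intervalIntegrable _ _)]
  have h1 := Real.arctan_lt_pi_div_two ((L - s.re) / s.im)
  have h2 := Real.neg_pi_div_two_lt_arctan ((-L - s.re) / s.im)
  have h3 : (s.im)⁻¹ * Real.arctan ((L - s.re) / s.im) -
      (s.im)⁻¹ * Real.arctan ((-L - s.re) / s.im) =
      (Real.arctan ((L - s.re) / s.im) - Real.arctan ((-L - s.re) / s.im)) / s.im := by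
    rw [div_eq_inv_mul]
    ring
  rw [h3]
  gcongr
  linarith

/-- the base point, outside the support, on the side opposite to the pole -/
noncomputable def v0 (s : ℂ) (L : ℝ) : ℝ := if 0 ≤ s.re then -(L + 1) else L + 1

theorem abs_v0 (s : ℂ) {L : ℝ} (hL : 0 ≤ L) : |v0 s L| = L + 1 := by
  unfold v0
  split_ifs
  · rw [abs_neg, abs_of_nonneg (by linarith)]
  · rw [abs_of_nonneg (by linarith)]

theorem norm_tt_v0 (hs : 0 < s.im) {L : ℝ} (hL : 0 ≤ L) :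
    ‖tt s (v0 s L)‖ ^ 2 ≤ (1 + ‖s‖ ^ 2)⁻¹ := by
  rw [norm_tt_sq]
  have h1 : ‖s‖ ^ 2 = s.re ^ 2 + s.im ^ 2 := by
    rw [← Complex.normSq_eq_norm_sq, Complex.normSq_apply]
    ring
  have h2 : v0 s L * s.re ≤ 0 := by
    unfold v0
    split_ifs with h
    · nlinarith
    · push Not at h
      nlinarith
  have h3 : v0 s L ^ 2 = (L + 1) ^ 2 := by
    rw [← sq_abs, abs_v0 s hL]
  refine inv_anti₀ (by positivity) ?_
  rw [h1]
  nlinarith

theorem tt_sub (hs : 0 < s.im) (v u : ℝ) :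
    tt s v - tt s u = ((u - v : ℝ) : ℂ) * (tt s v * tt s u) := by
  unfold tt
  have h1 := sub_ne hs v
  have h2 := sub_ne hs u
  field_simp
  push_cast
  ring

theorem norm_tt_sub_sq_le (hs : 0 < s.im) {L : ℝ} (hL : 0 ≤ L) {v : ℝ} (hv : |v| ≤ L) :
    ‖tt s v - tt s (v0 s L)‖ ^ 2 ≤ (2 * L + 1) ^ 2 * (1 + ‖s‖ ^ 2)⁻¹ * ‖tt s v‖ ^ 2 := by
  rw [tt_sub hs, norm_mul, norm_mul, Complex.norm_real, Real.norm_eq_abs, mul_pow, mul_pow]
  have h1 : |v0 s L - v| ≤ 2 * L + 1 := by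
    refine (abs_sub _ _).trans ?_
    rw [abs_v0 s hL]
    linarith
  have h2 := norm_tt_v0 hs hL
  have h3 : |v0 s L - v| ^ 2 ≤ (2 * L + 1) ^ 2 := by gcongr
  calc |v0 s L - v| ^ 2 * (‖tt s v‖ ^ 2 * ‖tt s (v0 s L)‖ ^ 2)
      ≤ (2 * L + 1) ^ 2 * (‖tt s v‖ ^ 2 * (1 + ‖s‖ ^ 2)⁻¹) := by gcongr
    _ = _ := by ring

/-! ### laws with a `C¹` density of compact support -/

/-- `ν` has a `C¹` density, with derivative bounded by `R`, supported in `[-L, L]` -/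
def SmL (ν : Measure ℝ) (L R : ℝ) : Prop :=
  ∃ ρ ρ' : ℝ → ℝ, (∀ v, HasDerivAt ρ (ρ' v) v) ∧ Continuous ρ' ∧ (∀ v, 0 ≤ ρ v) ∧
    (∀ v, |ρ' v| ≤ R) ∧ (∀ v, L ≤ |v| → ρ v = 0) ∧
    ν = volume.withDensity fun v => ENNReal.ofReal (ρ v)

theorem integral_density {ρ : ℝ → ℝ} (hρ : Continuous ρ) (hρ0 : ∀ v, 0 ≤ ρ v) {L : ℝ}
    (hL : 0 ≤ L) (hsupp : ∀ v, L ≤ |v| → ρ v = 0) (h : ℝ → ℝ) :
    ∫ v, h v ∂(volume.withDensity fun v => ENNReal.ofReal (ρ v)) = ∫ v in (-L)..L, ρ v * h v := by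
  have h1 : ∫ v, h v ∂(volume.withDensity fun v => ENNReal.ofReal (ρ v)) = ∫ v, ρ v * h v := by
    rw [integral_withDensity_eq_integral_toReal_smul hρ.measurable.ennreal_ofReal
      (Filter.Eventually.of_forall fun v => ENNReal.ofReal_lt_top)]
    refine integral_congr_ae (Filter.Eventually.of_forall fun v => ?_)
    show (ENNReal.ofReal (ρ v)).toReal • h v = _
    rw [ENNReal.toReal_ofReal (hρ0 v), smul_eq_mul]
  rw [h1, intervalIntegral.integral_of_le (by linarith)]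
  refine (setIntegral_eq_integral_of_forall_compl_eq_zero fun v hv => ?_).symm
  have h2 : L ≤ |v| := by
    by_contra hlt
    push Not at hlt
    rw [abs_lt] at hlt
    exact hv ⟨hlt.1, hlt.2.le⟩
  rw [hsupp v h2, zero_mul]

/-- integration by parts -/
theorem ibp {ρ ρ' : ℝ → ℝ} (hd : ∀ v, HasDerivAt ρ (ρ' v) v) (hc : Continuous ρ')
    {L : ℝ} (hL : 0 ≤ L) (hsupp : ∀ v, L ≤ |v| → ρ v = 0) {H H' : ℝ → ℝ}
    (hH : ∀ v, HasDerivAt H (H' v) v) (hH' : Continuous H') :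
    ∫ v in (-L)..L, ρ v * H' v = -∫ v in (-L)..L, ρ' v * H v := by
  rw [intervalIntegral.integral_mul_deriv_eq_deriv_mul (fun v _ => hd v) (fun v _ => hH v)
    (hc.intervalIntegrable _ _) (hH'.intervalIntegrable _ _)]
  rw [hsupp L (by rw [abs_of_nonneg hL]), hsupp (-L) (by rw [abs_neg, abs_of_nonneg hL])]
  ring

/-- hypotheses on the derivative `T1 = Θ'` and the second derivative `T2 = Θ''` -/
structure Sm (T1 T2 : ℝ → ℝ) (M1 M2 M3 : ℝ) : Prop where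
  d : ∀ F, 0 ≤ F → HasDerivAt T1 (T2 F) F
  c : ContinuousOn T2 (Ici 0)
  b1 : ∀ F, 0 ≤ F → |T1 F| ≤ M1
  b2 : ∀ F, 0 ≤ F → |T2 F| ≤ M2
  b3 : ∀ F F', 0 ≤ F → 0 ≤ F' → |T1 F' - T1 F - T2 F * (F' - F)| ≤ M3 * (F' - F) ^ 2

theorem Sm.M1_nonneg {T1 T2 : ℝ → ℝ} {M1 M2 M3 : ℝ} (h : Sm T1 T2 M1 M2 M3) : 0 ≤ M1 :=
  (abs_nonneg _).trans (h.b1 0 le_rfl)

theorem Sm.M2_nonneg {T1 T2 : ℝ → ℝ} {M1 M2 M3 : ℝ} (h : Sm T1 T2 M1 M2 M3) : 0 ≤ M2 :=
  (abs_nonneg _).trans (h.b2 0 le_rfl)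

theorem Sm.M3_nonneg {T1 T2 : ℝ → ℝ} {M1 M2 M3 : ℝ} (h : Sm T1 T2 M1 M2 M3) : 0 ≤ M3 := by
  have := (abs_nonneg _).trans (h.b3 0 1 le_rfl zero_le_one)
  linarith

/-- the derivative of `T1 (F) del` -/
noncomputable def HD (T1 T2 : ℝ → ℝ) (F0 : ℝ) (b s : ℂ) (v : ℝ) : ℝ :=
  T2 (FF F0 b s v) * (2 * (tt s v).im * del b s v) * del b s v +
    T1 (FF F0 b s v) * (I * b * tt s v ^ 2).re

theorem hasDerivAt_H {T1 T2 : ℝ → ℝ} {M1 M2 M3 : ℝ} (h : Sm T1 T2 M1 M2 M3) (hs : 0 < s.im)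
    (hF : ∀ v, 0 ≤ FF F0 b s v) (v : ℝ) :
    HasDerivAt (fun v => T1 (FF F0 b s v) * del b s v) (HD T1 T2 F0 b s v) v := by
  have h1 := (h.d _ (hF v)).comp v (hasDerivAt_FF (F0 := F0) (b := b) hs v)
  exact h1.mul (hasDerivAt_del hs v)

theorem continuous_T2_FF {T1 T2 : ℝ → ℝ} {M1 M2 M3 : ℝ} (h : Sm T1 T2 M1 M2 M3) (hs : 0 < s.im)
    (hF : ∀ v, 0 ≤ FF F0 b s v) : Continuous fun v => T2 (FF F0 b s v) :=
  h.c.comp_continuous (continuous_FF hs) hF

theorem continuous_T1_FF {T1 T2 : ℝ → ℝ} {M1 M2 M3 : ℝ} (h : Sm T1 T2 M1 M2 M3) (hs : 0 < s.im)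
    (hF : ∀ v, 0 ≤ FF F0 b s v) : Continuous fun v => T1 (FF F0 b s v) :=
  continuous_iff_continuousAt.2 fun v =>
    ((h.d _ (hF v)).comp v (hasDerivAt_FF (F0 := F0) (b := b) hs v)).continuousAt

theorem continuous_re_mul_tt_sq (hs : 0 < s.im) (c : ℂ) :
    Continuous fun v => (c * tt s v ^ 2).re :=
  Complex.continuous_re.comp (continuous_const.mul ((continuous_tt hs).pow 2))

theorem continuous_HD {T1 T2 : ℝ → ℝ} {M1 M2 M3 : ℝ} (h : Sm T1 T2 M1 M2 M3) (hs : 0 < s.im)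
    (hF : ∀ v, 0 ≤ FF F0 b s v) : Continuous (HD T1 T2 F0 b s) :=
  (((continuous_T2_FF h hs hF).mul ((continuous_const.mul (Complex.continuous_im.comp
    (continuous_tt hs))).mul (continuous_del hs))).mul (continuous_del hs)).add
    ((continuous_T1_FF h hs hF).mul (continuous_re_mul_tt_sq hs _))

/-- constant of the law error -/
noncomputable def CL (L R c2 M1 M2 M3 K : ℝ) : ℝ :=
  (M1 + 3 / 2 * K * M2) * c2 + (M2 + 3 / 2 * K * M3) * K * (R * (2 * L + 1) ^ 2 * Real.pi)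

/-- **the law error, without logarithm** -/
theorem law_err {ν : Measure ℝ} {L R c2 M1 M2 M3 K : ℝ} (hL : 0 ≤ L) (hν : SmL ν L R)
    {T1 T2 : ℝ → ℝ} (h : Sm T1 T2 M1 M2 M3) (hs : 0 < s.im) (hR : 0 ≤ R)
    (hc2 : ‖∫ v, tt s v ^ 2 ∂ν‖ ≤ c2 / (1 + ‖s‖ ^ 2)) (hK0 : 0 ≤ K) (hK : ‖b‖ ≤ K * s.im)
    (hF : ∀ v, 0 ≤ FF F0 b s v) :
    |∫ v, HD T1 T2 F0 b s v ∂ν| ≤ CL L R c2 M1 M2 M3 K * (‖b‖ / (1 + ‖s‖ ^ 2)) := by
  obtain ⟨ρ, ρ', hd, hc, hρ0, hρR, hsupp, hνd⟩ := hν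
  have hρc : Continuous ρ := continuous_iff_continuousAt.2 fun v => (hd v).continuousAt
  have hM1 := h.M1_nonneg
  have hM2 := h.M2_nonneg
  have hM3 := h.M3_nonneg
  have hbn := norm_nonneg b
  set t₀ := tt s (v0 s L) with ht₀
  set F₀ := FF F0 b s (v0 s L) with hF₀
  set δ₀ := del b s (v0 s L) with hδ₀
  set c : ℂ := -((T1 F₀ : ℝ) : ℂ) * (I * b) + ((T2 F₀ * δ₀ : ℝ) : ℂ) * b with hcdef
  set H : ℝ → ℝ := fun v => T1 (FF F0 b s v) * del b s v with hHdef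
  have hHc : Continuous H := (continuous_T1_FF h hs hF).mul (continuous_del hs)
  have hbK : ‖b‖ / s.im ≤ K := by
    rw [div_le_iff₀ hs]
    exact hK
  have hδ₀' : |δ₀| ≤ 3 / 2 * K := (abs_del_le hs _).trans (by linarith)
  -- the remainder
  set Rm : ℝ → ℝ := fun v => H v - T1 F₀ * δ₀ - ((c * tt s v).re - (c * t₀).re) with hRm
  have hlin : ∀ c : ℂ, Continuous fun v => (c * tt s v).re := fun c =>
    Complex.continuous_re.comp (continuous_const.mul (continuous_tt hs))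
  have hRmc : Continuous Rm := (hHc.sub continuous_const).sub ((hlin c).sub continuous_const)
  have hRb : ∀ v, |Rm v| ≤ (M2 + 3 / 2 * K * M3) * ‖b‖ ^ 2 * ‖tt s v - t₀‖ ^ 2 := by
    intro v
    set dd := tt s v - t₀ with hdd
    have e1 : FF F0 b s v - F₀ = (b * dd).re := by
      rw [hF₀, hdd, FF, FF, mul_sub, Complex.sub_re]
      ring
    have e2 : del b s v = δ₀ - (I * b * dd).re := by
      rw [hδ₀, hdd, del, del, mul_sub, Complex.sub_re]
      ring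
    have e3 : (c * tt s v).re - (c * t₀).re = -(T1 F₀) * (I * b * dd).re +
        T2 F₀ * δ₀ * (b * dd).re := by
      rw [← Complex.sub_re, ← mul_sub, ← hdd, hcdef, add_mul, Complex.add_re]
      rw [mul_assoc (-((T1 F₀ : ℝ) : ℂ)), mul_assoc (((T2 F₀ * δ₀ : ℝ) : ℂ)), neg_mul,
        Complex.neg_re, Complex.re_ofReal_mul, Complex.re_ofReal_mul]
      ring
    have e4 : Rm v = (T1 (FF F0 b s v) - T1 F₀ - T2 F₀ * (FF F0 b s v - F₀)) * del b s v -
        T2 F₀ * ((b * dd).re * (I * b * dd).re) := by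
      show T1 (FF F0 b s v) * del b s v - T1 F₀ * δ₀ - ((c * tt s v).re - (c * t₀).re) = _
      rw [e3, e1, e2]
      ring
    have h3 := h.b3 F₀ (FF F0 b s v) (hF _) (hF _)
    rw [e1] at h3
    have hn : ∀ a : ℂ, ‖a‖ = ‖b‖ → |(a * dd).re| ≤ ‖b‖ * ‖dd‖ := fun a ha => by
      refine (Complex.abs_re_le_norm _).trans ?_
      rw [norm_mul, ha]
    have h5 := hn b rfl
    have h6 := hn (I * b) (by rw [norm_mul, norm_I, one_mul])
    have h7 : (b * dd).re ^ 2 ≤ (‖b‖ * ‖dd‖) ^ 2 := by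
      rw [← sq_abs]
      gcongr
    have h8 : |del b s v| ≤ 3 / 2 * K := (abs_del_le hs v).trans (by linarith)
    rw [e4, e1]
    refine (abs_sub _ _).trans ?_
    rw [abs_mul, abs_mul (T2 F₀), abs_mul ((b * dd).re)]
    have h9 : |T1 (FF F0 b s v) - T1 F₀ - T2 F₀ * (b * dd).re| * |del b s v| ≤
        (M3 * (‖b‖ * ‖dd‖) ^ 2) * (3 / 2 * K) :=
      mul_le_mul (h3.trans (mul_le_mul_of_nonneg_left h7 hM3)) h8 (abs_nonneg _) (by positivity)
    have h10 : |T2 F₀| * (|(b * dd).re| * |(I * b * dd).re|) ≤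
        M2 * ((‖b‖ * ‖dd‖) * (‖b‖ * ‖dd‖)) :=
      mul_le_mul (h.b2 _ (hF _)) (mul_le_mul h5 h6 (abs_nonneg _) (by positivity)) (by positivity)
        hM2
    calc _ ≤ (M3 * (‖b‖ * ‖dd‖) ^ 2) * (3 / 2 * K) + M2 * ((‖b‖ * ‖dd‖) * (‖b‖ * ‖dd‖)) :=
          add_le_add h9 h10
      _ = _ := by ring
  -- the integral
  have e0 : ∫ v, HD T1 T2 F0 b s v ∂ν = -∫ v in (-L)..L, ρ' v * H v := by
    rw [hνd, integral_density hρc hρ0 hL hsupp]
    exact ibp hd hc hL hsupp (fun v => hasDerivAt_H h hs hF v) (continuous_HD h hs hF)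
  have e1 : ∫ v in (-L)..L, ρ' v * 1 = 0 := by
    have := ibp hd hc hL hsupp (H := fun _ => (1 : ℝ)) (H' := fun _ => 0)
      (fun v => hasDerivAt_const _ _) continuous_const
    simp only [mul_zero, intervalIntegral.integral_zero] at this
    linarith
  have e2 : ∫ v in (-L)..L, ρ' v * (c * tt s v).re = (c * ∫ v, tt s v ^ 2 ∂ν).re := by
    have h1 := ibp hd hc hL hsupp (H := fun v => (c * tt s v).re)
      (H' := fun v => -(c * tt s v ^ 2).re) (fun v => hasDerivAt_mul_tt hs c v)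
      (continuous_re_mul_tt_sq hs c).neg
    rw [← integral_density hρc hρ0 hL hsupp, ← hνd, integral_neg] at h1
    have h2 : Integrable (fun v => c * tt s v ^ 2) ν := by
      by_cases hz : Integrable (fun v => tt s v ^ 2) ν
      · exact hz.const_mul c
      · exfalso
        apply hz
        rw [hνd]
        rw [integrable_withDensity_iff_integrable_smul' hρc.measurable.ennreal_ofReal
          (Filter.Eventually.of_forall fun v => ENNReal.ofReal_lt_top)]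
        have hcs : HasCompactSupport fun v => (ENNReal.ofReal (ρ v)).toReal • tt s v ^ 2 := by
          refine HasCompactSupport.intro (K := Icc (-L) L) isCompact_Icc fun v hv => ?_
          have h2 : L ≤ |v| := by
            by_contra hlt
            push Not at hlt
            rw [abs_lt] at hlt
            exact hv ⟨hlt.1.le, hlt.2.le⟩
          rw [hsupp v h2]
          simp
        refine Continuous.integrable_of_hasCompactSupport ?_ hcs
        have : (fun v => (ENNReal.ofReal (ρ v)).toReal • tt s v ^ 2) = fun v =>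
            (ρ v) • tt s v ^ 2 := by
          funext v
          rw [ENNReal.toReal_ofReal (hρ0 v)]
        rw [this]
        exact hρc.smul ((continuous_tt hs).pow 2)
    have h3 : (∫ v, (c * tt s v ^ 2).re ∂ν) = (c * ∫ v, tt s v ^ 2 ∂ν).re := by
      rw [← integral_const_mul]
      exact integral_re h2
    rw [h3] at h1
    linarith
  have e3 : ∫ v in (-L)..L, ρ' v * H v = (c * ∫ v, tt s v ^ 2 ∂ν).re +
      ∫ v in (-L)..L, ρ' v * Rm v := by
    have h1 : ∀ v, ρ' v * H v = (T1 F₀ * δ₀ - (c * t₀).re) * (ρ' v * 1) +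
        ρ' v * (c * tt s v).re + ρ' v * Rm v := by
      intro v
      show _ = _ + ρ' v * (H v - T1 F₀ * δ₀ - ((c * tt s v).re - (c * t₀).re))
      ring
    simp only [h1]
    rw [intervalIntegral.integral_add, intervalIntegral.integral_add,
      intervalIntegral.integral_const_mul, e1, e2, mul_zero, zero_add]
    · exact (continuous_const.mul (hc.mul continuous_const)).intervalIntegrable _ _
    · exact (hc.mul (hlin c)).intervalIntegrable _ _
    · exact ((continuous_const.mul (hc.mul continuous_const)).add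
        (hc.mul (hlin c))).intervalIntegrable _ _
    · exact (hc.mul hRmc).intervalIntegrable _ _
  have hsp : 0 < 1 + ‖s‖ ^ 2 := by positivity
  have hc' : ‖c‖ ≤ (M1 + 3 / 2 * K * M2) * ‖b‖ := by
    rw [hcdef]
    refine (norm_add_le _ _).trans ?_
    rw [norm_mul, norm_mul, norm_mul, norm_neg, norm_I, one_mul, Complex.norm_real,
      Complex.norm_real, Real.norm_eq_abs, Real.norm_eq_abs, abs_mul]
    have h1 : |T1 F₀| * ‖b‖ ≤ M1 * ‖b‖ := mul_le_mul_of_nonneg_right (h.b1 _ (hF _)) hbn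
    have h2 : |T2 F₀| * |δ₀| * ‖b‖ ≤ M2 * (3 / 2 * K) * ‖b‖ :=
      mul_le_mul_of_nonneg_right (mul_le_mul (h.b2 _ (hF _)) hδ₀' (abs_nonneg _) hM2) hbn
    nlinarith
  have hA : |(c * ∫ v, tt s v ^ 2 ∂ν).re| ≤
      (M1 + 3 / 2 * K * M2) * c2 * (‖b‖ / (1 + ‖s‖ ^ 2)) := by
    refine (Complex.abs_re_le_norm _).trans ?_
    rw [norm_mul]
    calc ‖c‖ * ‖∫ v, tt s v ^ 2 ∂ν‖ ≤ ((M1 + 3 / 2 * K * M2) * ‖b‖) * (c2 / (1 + ‖s‖ ^ 2)) :=
          mul_le_mul hc' hc2 (norm_nonneg _) (by positivity)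
      _ = _ := by ring
  have hB : |∫ v in (-L)..L, ρ' v * Rm v| ≤
      (M2 + 3 / 2 * K * M3) * K * (R * (2 * L + 1) ^ 2 * Real.pi) * (‖b‖ / (1 + ‖s‖ ^ 2)) := by
    have h1 : ‖∫ v in (-L)..L, ρ' v * Rm v‖ ≤ ∫ v in (-L)..L,
        (R * ((M2 + 3 / 2 * K * M3) * ‖b‖ ^ 2 * ((2 * L + 1) ^ 2 * (1 + ‖s‖ ^ 2)⁻¹))) *
          ‖tt s v‖ ^ 2 := by
      refine intervalIntegral.norm_integral_le_of_norm_le (by linarith) ?_ ?_
      · refine Filter.Eventually.of_forall fun v hv => ?_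
        have hvL : |v| ≤ L := abs_le.2 ⟨hv.1.le, hv.2⟩
        rw [Real.norm_eq_abs, abs_mul]
        have h2 := norm_tt_sub_sq_le hs hL hvL
        calc |ρ' v| * |Rm v| ≤ R * ((M2 + 3 / 2 * K * M3) * ‖b‖ ^ 2 * ‖tt s v - t₀‖ ^ 2) :=
              mul_le_mul (hρR v) (hRb v) (abs_nonneg _) hR
          _ ≤ R * ((M2 + 3 / 2 * K * M3) * ‖b‖ ^ 2 *
              ((2 * L + 1) ^ 2 * (1 + ‖s‖ ^ 2)⁻¹ * ‖tt s v‖ ^ 2)) := by
              gcongr
          _ = _ := by ring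
      · exact (continuous_const.mul ((continuous_tt hs).norm.pow 2)).intervalIntegrable _ _
    rw [intervalIntegral.integral_const_mul] at h1
    rw [← Real.norm_eq_abs]
    refine h1.trans ?_
    have h3 := integral_norm_tt_sq_le hs hL
    calc _ ≤ (R * ((M2 + 3 / 2 * K * M3) * ‖b‖ ^ 2 * ((2 * L + 1) ^ 2 * (1 + ‖s‖ ^ 2)⁻¹))) *
          (Real.pi / s.im) := mul_le_mul_of_nonneg_left h3 (by positivity)
      _ = (M2 + 3 / 2 * K * M3) * (‖b‖ / s.im) * (R * (2 * L + 1) ^ 2 * Real.pi) *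
          (‖b‖ / (1 + ‖s‖ ^ 2)) := by
          rw [div_eq_mul_inv, div_eq_mul_inv, div_eq_mul_inv]
          ring
      _ ≤ (M2 + 3 / 2 * K * M3) * K * (R * (2 * L + 1) ^ 2 * Real.pi) *
          (‖b‖ / (1 + ‖s‖ ^ 2)) := by
          have hpi := Real.pi_pos
          gcongr
  rw [e0, abs_neg, e3]
  refine (abs_add_le _ _).trans ?_
  calc _ ≤ (M1 + 3 / 2 * K * M2) * c2 * (‖b‖ / (1 + ‖s‖ ^ 2)) +
      (M2 + 3 / 2 * K * M3) * K * (R * (2 * L + 1) ^ 2 * Real.pi) * (‖b‖ / (1 + ‖s‖ ^ 2)) :=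
        add_le_add hA hB
    _ = _ := by
        rw [CL]
        ring

end P365T2.H79
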